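import Mathlib
import Vale.Agent.P204.Torus.Defs

/-!
# P204 on a closed four-manifold: working definitions

The manifold is a compact subset `X` of `ℝ^N`. The chart `c` is the restriction of the affine map
`x ↦ L c (x - o c)`, with inverse `psi c` on the open cube `box`. A two-form is a field of skew
`N × N` matrices, read only through the differentials of the `psi c`.

These definitions serve the proof only; the final statement is
`Vale.Agent.P204.General.Statement`.
-/

open MeasureTheory Matrix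
open scoped ContDiff

namespace Vale.Agent.P204.General

open Vale.Agent.P204.Torus

/-- The ambient space. -/
abbrev Amb (N : ℕ) := Fin N → ℝ

/-- Ambient matrices. -/
abbrev MN (N : ℕ) := Matrix (Fin N) (Fin N) ℝ

/-- The open coordinate cube. -/
def box : Set Pt := Metric.ball 0 1

/-- A compact four-dimensional submanifold with graph charts and a partition of unity. -/
structure Atlas (N K : ℕ) where
  /-- The manifold. -/
  X : Set (Amb N)
  /-- The linear parts of the charts. -/
  L : Fin K → Matrix (Fin 4) (Fin N) ℝ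
  /-- The centres of the charts. -/
  o : Fin K → Amb N
  /-- The parametrisations. -/
  psi : Fin K → Pt → Amb N
  /-- The partition of unity. -/
  chi : Fin K → Amb N → ℝ
  compact : IsCompact X
  nonempty : X.Nonempty
  psi_smooth : ∀ c, ContDiff ℝ ∞ (psi c)
  psi_mem : ∀ c, ∀ p ∈ box, psi c p ∈ X
  left_inv : ∀ c, ∀ p ∈ box, L c *ᵥ (psi c p - o c) = p
  open_image : ∀ c, ∃ U, IsOpen U ∧ X ∩ U = psi c '' box
  chi_smooth : ∀ c, ContDiff ℝ ∞ (chi c)
  chi_nonneg : ∀ c x, 0 ≤ chi c x
  chi_sum : ∀ x ∈ X, ∑ c, chi c x = 1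
  chi_supp : ∀ c, ∀ x ∈ X, chi c x ≠ 0 → x ∈ psi c '' Metric.closedBall 0 (1 / 2)

variable {N K : ℕ} (A : Atlas N K)

/-- The chart map. -/
def Atlas.phi (c : Fin K) (x : Amb N) : Pt := A.L c *ᵥ (x - A.o c)

/-- The differential of a parametrisation. -/
noncomputable def Atlas.dmat (c : Fin K) (p : Pt) : Matrix (Fin N) (Fin 4) ℝ :=
  Matrix.of fun a i => pd i (fun q => A.psi c q a) p

/-- A two-form value in the chart `c` at the point with coordinates `p`. -/
noncomputable def Atlas.pullAt (c : Fin K) (M : MN N) (p : Pt) : M4 :=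
  (A.dmat c p)ᵀ * M * A.dmat c p

/-- A two-form in the chart `c`. -/
noncomputable def Atlas.pull (c : Fin K) (a : Amb N → MN N) (p : Pt) : M4 :=
  A.pullAt c (a (A.psi c p)) p

/-- A one-form in the chart `c`. -/
noncomputable def Atlas.pullOne (c : Fin K) (b : Amb N → Amb N) (p : Pt) : Pt :=
  (A.dmat c p)ᵀ *ᵥ b (A.psi c p)

/-- A field of forms given in the chart `c`, moved to the ambient space. -/
def Atlas.push (c : Fin K) (a : Pt → M4) (x : Amb N) : MN N :=
  (A.L c)ᵀ * a (A.phi c x) * A.L c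

/-- The endomorphism field in the chart `c`. -/
noncomputable def Atlas.jc (J : Amb N → MN N) (c : Fin K) (p : Pt) : M4 :=
  A.L c * J (A.psi c p) * A.dmat c p

/-- A smooth two-form. -/
structure IsTestX (a : Amb N → MN N) : Prop where
  skew : ∀ x, (a x)ᵀ = -a x
  smooth : ∀ c i k, ContDiffOn ℝ ∞ (fun p => A.pull c a p i k) box

/-- A smooth closed two-form. -/
structure IsClosedX (a : Amb N → MN N) : Prop extends IsTestX A a where
  closed : ∀ c, ∀ p ∈ box, ∀ i j k,
    pd i (fun q => A.pull c a q j k) p + pd j (fun q => A.pull c a q k i) p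
      + pd k (fun q => A.pull c a q i j) p = 0

/-- A smooth one-form. -/
def IsOneX (b : Amb N → Amb N) : Prop :=
  ∀ c k, ContDiffOn ℝ ∞ (fun p => A.pullOne c b p k) box

/-- `a` is the exterior derivative of `b`. -/
def IsDOne (a : Amb N → MN N) (b : Amb N → Amb N) : Prop :=
  ∀ c, ∀ p ∈ box, A.pull c a p = dOne (A.pullOne c b) p

/-- `a` is invariant under `J`. -/
def InvX (J a : Amb N → MN N) : Prop :=
  ∀ c, ∀ p ∈ box, (A.jc J c p)ᵀ * A.pull c a p * A.jc J c p = A.pull c a p

/-- `a` tames `J`. -/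
def TamesX (J a : Amb N → MN N) : Prop :=
  ∀ c, ∀ p ∈ box, ∀ v : Pt, v ≠ 0 → 0 < ev (A.pull c a p) v (A.jc J c p *ᵥ v)

/-- The invariant part of a two-form value. -/
noncomputable def inv11X (J : Amb N → MN N) (x : Amb N) (M : MN N) : MN N :=
  (2 : ℝ)⁻¹ • (M + (J x)ᵀ * M * J x)

/-- The anti-invariant part of a two-form value. -/
noncomputable def antiX (J : Amb N → MN N) (x : Amb N) (M : MN N) : MN N :=
  (2 : ℝ)⁻¹ • (M - (J x)ᵀ * M * J x)

/-- The reference volume density in the chart `d`. -/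
noncomputable def Atlas.dens (d : Fin K) (p : Pt) : ℝ :=
  ∑ c, A.chi c (A.psi d p) * (A.L c * A.dmat d p).det

/-- The reference measure on the manifold. -/
noncomputable def Atlas.vol : Measure (Amb N) :=
  ∑ c, ((volume.restrict box).withDensity
    fun p => ENNReal.ofReal (A.chi c (A.psi c p))).map (A.psi c)

/-- The wedge product of two form values against the reference volume. -/
noncomputable def Atlas.wedgePt (x : Amb N) (M M' : MN N) : ℝ :=
  ∑ d, A.chi d x * (wedge (A.pullAt d M (A.phi d x)) (A.pullAt d M' (A.phi d x))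
    / A.dens d (A.phi d x))

/-- The integral of the wedge product. -/
noncomputable def Atlas.wedgeInt (a a' : Amb N → MN N) : ℝ :=
  ∫ x, A.wedgePt x (a x) (a' x) ∂A.vol

/-- The squared size of a form value. -/
noncomputable def Atlas.sqX (x : Amb N) (M : MN N) : ℝ :=
  ∑ c, A.chi c x * sq2 (A.pullAt c M (A.phi c x))

/-- Square integrable forms. -/
def L2X (a : Amb N → MN N) : Prop :=
  (∀ i k, AEStronglyMeasurable (fun x => a x i k) A.vol) ∧
    Integrable (fun x => A.sqX x (a x)) A.vol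

/-- The `L²` norm. -/
noncomputable def Atlas.n2 (a : Amb N → MN N) : ℝ := Real.sqrt (∫ x, A.sqX x (a x) ∂A.vol)

/-- Sobolev sums of squares on coordinate space. -/
noncomputable def sobR : ℕ → (Pt → ℝ) → ℝ
  | 0, f => ∫ x, f x ^ 2
  | n + 1, f => sobR n f + ∑ d, sobR n (pd d f)

open Classical in
/-- A coefficient of a form in the chart `c`, cut off and extended by zero. -/
noncomputable def Atlas.cutCoef (c : Fin K) (a : Amb N → MN N) (i k : Fin 4) (p : Pt) : ℝ :=
  if p ∈ box then A.chi c (A.psi c p) * A.pull c a p i k else 0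

/-- Sobolev sums of squares of forms. -/
noncomputable def Atlas.sob (n : ℕ) (a : Amb N → MN N) : ℝ :=
  ∑ c, ∑ i, ∑ k, sobR n (A.cutCoef c a i k)

/-- Tangent vectors. -/
def Atlas.IsTan (x v : Amb N) : Prop :=
  ∃ c, ∃ p ∈ box, ∃ u : Pt, A.psi c p = x ∧ A.dmat c p *ᵥ u = v

/-- Unit tangent vectors. -/
def Atlas.unitTan : Set (Amb N × Amb N) :=
  {p | p.1 ∈ A.X ∧ A.IsTan p.1 p.2 ∧ p.2 ⬝ᵥ p.2 = 1}

/-- The orthogonal projection on the tangent space. -/
noncomputable def Atlas.proj (x : Amb N) : MN N :=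
  ∑ c, A.chi c x • (A.dmat c (A.phi c x) *
    ((A.dmat c (A.phi c x))ᵀ * A.dmat c (A.phi c x))⁻¹ * (A.dmat c (A.phi c x))ᵀ)

/-- A smooth almost complex structure, with positively oriented charts. -/
structure IsACS (J : Amb N → MN N) : Prop where
  tangent : ∀ c, ∀ p ∈ box, J (A.psi c p) * A.dmat c p = A.dmat c p * A.jc J c p
  sq : ∀ c, ∀ p ∈ box, A.jc J c p * A.jc J c p = -1
  smooth : ∀ c i k, ContDiffOn ℝ ∞ (fun p => A.jc J c p i k) box
  normal : ∀ x ∈ A.X, J x * A.proj x = J x
  pos : ∀ c, ∀ p ∈ box, ∀ M : M4, Mᵀ = -M →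
    (A.jc J c p)ᵀ * M * A.jc J c p = -M → 0 ≤ wedge M M

/-- A `J`-invariant metric, as an ambient bilinear form. -/
noncomputable def Atlas.gMat (J : Amb N → MN N) (x : Amb N) : MN N :=
  ∑ c, A.chi c x • ((A.L c)ᵀ * gH (A.jc J c (A.phi c x)) * A.L c)

/-- The metric on tangent parts, completed by the Euclidean one on normal parts. -/
noncomputable def Atlas.mMat (J : Amb N → MN N) (x : Amb N) : MN N :=
  (A.proj x)ᵀ * A.gMat J x * A.proj x + (1 - A.proj x)

/-- Squared distance of `v` from the complex line of `l`, times the squared length of `l`. -/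
noncomputable def Atlas.offX (J : Amb N → MN N) (x l v : Amb N) : ℝ :=
  let g := fun u w => u ⬝ᵥ (A.gMat J x *ᵥ w)
  g (A.proj x *ᵥ v) (A.proj x *ᵥ v) * g l l - g (A.proj x *ᵥ v) l ^ 2
    - g (A.proj x *ᵥ v) (J x *ᵥ l) ^ 2

/-- The regularised distance. -/
noncomputable def rsX (s : ℝ) (x y : Amb N) : ℝ := Real.sqrt (‖x - y‖ ^ 2 + s ^ 2)

/-- The squared distance with the averaged metric. -/
noncomputable def Atlas.q0 (J : Amb N → MN N) (x y : Amb N) : ℝ :=
  (2 : ℝ)⁻¹ * ((y - x) ⬝ᵥ ((A.mMat J x + A.mMat J y) *ᵥ (y - x)))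

/-- The test potential. -/
noncomputable def Atlas.pot (J : Amb N → MN N) (s : ℝ) (x y : Amb N) : ℝ :=
  Real.log (A.q0 J x y + s ^ 2) / 2

/-- `dJd` of the potential in the second variable, glued from the charts. -/
noncomputable def Atlas.ddPot (J : Amb N → MN N) (s : ℝ) (x y : Amb N) : MN N :=
  ∑ c, A.chi c y • A.push c (fun q => -dOne (fun q' k =>
    fderiv ℝ (fun t => A.pot J s x (A.psi c t)) q' (A.jc J c q' *ᵥ Pi.single k 1)) q) y

/-- The scalar kernel profile of width `ε`. -/
noncomputable def kern (ε r : ℝ) : ℝ := 1 / ε ^ 4 / (1 + r ^ 2 / ε ^ 2) ^ 5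

/-- The scalar smoothing of a function. -/
noncomputable def Atlas.conv (ε : ℝ) (f : Amb N → ℝ) (x : Amb N) : ℝ :=
  ∫ y, kern ε ‖x - y‖ * f y ∂A.vol

/-- The positive current of a measure on tangent vectors. -/
noncomputable def tcurX (J : Amb N → MN N) (m : Measure (Amb N × Amb N))
    (a : Amb N → MN N) : ℝ :=
  ∫ p, p.2 ⬝ᵥ (a p.1 *ᵥ (J p.1 *ᵥ p.2)) ∂m

/-- An obstruction to compatible forms. -/
structure ObsX (J : Amb N → MN N) (m : Measure (Amb N × Amb N)) : Prop where
  finite : IsFiniteMeasure m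
  nonzero : m ≠ 0
  supp : ∀ᵐ p ∂m, p ∈ A.unitTan
  kills : ∀ a, IsClosedX A a → InvX A J a → tcurX J m a = 0

/-- An extension `tcurX + R` which kills every closed form. -/
structure IsExtX (J : Amb N → MN N) (m : Measure (Amb N × Amb N))
    (R : (Amb N → MN N) → ℝ) (C : ℝ) : Prop where
  add : ∀ a b, IsTestX A a → IsTestX A b → R (a + b) = R a + R b
  smul : ∀ (t : ℝ) a, IsTestX A a → R (t • a) = t * R a
  inv : ∀ a, IsTestX A a → InvX A J a → R a = 0
  bound : ∀ a, IsTestX A a →
    |R a| ≤ C * Real.sqrt (A.sob 3 fun x => antiX J x (a x))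
  kills : ∀ a, IsClosedX A a → tcurX J m a + R a = 0

end Vale.Agent.P204.General
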