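import Mathlib
import Vale.Agent.P204.General.Basics

/-!
# P204 on a closed four-manifold: chart changes
-/

open MeasureTheory Matrix Filter
open scoped ContDiff Topology

namespace Vale.Agent.P204.General

open Vale.Agent.P204.Torus

variable {N K : ℕ} (A : Atlas N K)

theorem isOpen_box : IsOpen box := Metric.isOpen_ball

theorem closedBall_subset_box : Metric.closedBall (0 : Pt) (1 / 2) ⊆ box :=
  Metric.closedBall_subset_ball (by norm_num)

theorem zero_mem_box : (0 : Pt) ∈ box := Metric.mem_ball_self one_pos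

namespace Atlas

theorem psi_diff (c : Fin K) (p : Pt) : DifferentiableAt ℝ (A.psi c) p :=
  ((A.psi_smooth c).differentiable (by norm_num)).differentiableAt

theorem psi_cont (c : Fin K) : Continuous (A.psi c) := (A.psi_smooth c).continuous

theorem phi_cont (c : Fin K) : Continuous (A.phi c) := by
  unfold Atlas.phi mulVec dotProduct
  fun_prop

theorem phi_psi (c : Fin K) {p : Pt} (hp : p ∈ box) : A.phi c (A.psi c p) = p :=
  A.left_inv c p hp

theorem psi_phi (c : Fin K) {x : Amb N} (hx : x ∈ A.psi c '' box) : A.psi c (A.phi c x) = x := by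
  obtain ⟨p, hp, rfl⟩ := hx
  rw [A.phi_psi c hp]

theorem phi_mem (c : Fin K) {x : Amb N} (hx : x ∈ A.psi c '' box) : A.phi c x ∈ box := by
  obtain ⟨p, hp, rfl⟩ := hx
  rwa [A.phi_psi c hp]

theorem dmat_apply (c : Fin K) (p : Pt) (a : Fin N) (i : Fin 4) :
    A.dmat c p a i = fderiv ℝ (A.psi c) p (Pi.single i 1) a := by
  simp only [Atlas.dmat, of_apply, pd]
  rw [fderiv_apply (A.psi_diff c p) a, ContinuousLinearMap.comp_apply,
    ContinuousLinearMap.proj_apply]

theorem dmat_mulVec (c : Fin K) (p u : Pt) : A.dmat c p *ᵥ u = fderiv ℝ (A.psi c) p u := by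
  have hu : u = ∑ i, u i • Pi.single (M := fun _ => ℝ) i 1 := by
    funext k; simp [Finset.sum_apply, Pi.single_apply]
  funext a
  conv_rhs => rw [hu, map_sum]
  simp only [Finset.sum_apply, map_smul, Pi.smul_apply, smul_eq_mul, mulVec, dotProduct,
    A.dmat_apply]
  exact Finset.sum_congr rfl fun i _ => mul_comm _ _

theorem dmat_smooth (c : Fin K) (a : Fin N) (i : Fin 4) :
    ContDiff ℝ ∞ fun p => A.dmat c p a i := by
  simp only [A.dmat_apply]
  exact contDiff_pi.1 (((A.psi_smooth c).fderiv_right (m := ∞) (by norm_num)).clm_apply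
    contDiff_const) a

/-- The linear part of the chart inverts the differential of the parametrisation. -/
theorem L_mul_dmat (c : Fin K) {p : Pt} (hp : p ∈ box) : A.L c * A.dmat c p = 1 := by
  refine Matrix.toLin'.injective (LinearMap.ext fun u => ?_)
  simp only [Matrix.toLin'_apply, ← mulVec_mulVec, one_mulVec, A.dmat_mulVec]
  have h1 : HasFDerivAt (fun q => A.phi c (A.psi c q))
      ((Matrix.mulVecLin (A.L c)).toContinuousLinearMap.comp (fderiv ℝ (A.psi c) p)) p :=
    ((Matrix.mulVecLin (A.L c)).toContinuousLinearMap.hasFDerivAt).comp p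
      ((A.psi_diff c p).hasFDerivAt.sub_const (A.o c))
  have h2 : HasFDerivAt (fun q => A.phi c (A.psi c q)) (ContinuousLinearMap.id ℝ Pt) p :=
    (hasFDerivAt_id p).congr_of_eventuallyEq
      (eventually_of_mem (isOpen_box.mem_nhds hp) fun q hq => A.phi_psi c hq)
  simpa using congrArg (fun T : Pt →L[ℝ] Pt => T u) (h1.unique h2)

theorem L_mulVec_dmat (c : Fin K) {p : Pt} (hp : p ∈ box) (u : Pt) :
    A.L c *ᵥ (A.dmat c p *ᵥ u) = u := by
  rw [mulVec_mulVec, A.L_mul_dmat c hp, one_mulVec]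

/-- The chart change from `d` to `c`. -/
def trans (c d : Fin K) (p : Pt) : Pt := A.phi c (A.psi d p)

/-- On an overlap the parametrisations differ by the chart change. -/
theorem psi_trans_eventually (c d : Fin K) {p : Pt} (hp : p ∈ box)
    (hc : A.psi d p ∈ A.psi c '' box) :
    ∀ᶠ q in 𝓝 p, q ∈ box ∧ A.psi d q ∈ A.psi c '' box := by
  obtain ⟨U, hU, hXU⟩ := A.open_image c
  have h1 : A.psi d p ∈ U := (hXU.symm ▸ hc : A.psi d p ∈ A.X ∩ U).2
  filter_upwards [isOpen_box.mem_nhds hp,
    (A.psi_cont d).continuousAt.preimage_mem_nhds (hU.mem_nhds h1)] with q hq hq'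
  exact ⟨hq, hXU ▸ ⟨A.psi_mem d q hq, hq'⟩⟩

/-- The differentials of two parametrisations differ by the differential of the chart change. -/
theorem dmat_trans (c d : Fin K) {p : Pt} (hp : p ∈ box) (hc : A.psi d p ∈ A.psi c '' box) :
    A.dmat d p = A.dmat c (A.trans c d p) * (A.L c * A.dmat d p) := by
  refine Matrix.toLin'.injective (LinearMap.ext fun u => ?_)
  simp only [Matrix.toLin'_apply, ← mulVec_mulVec]
  rw [A.dmat_mulVec d, A.dmat_mulVec c]
  have hd := (A.psi_diff d p).hasFDerivAt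
  have h1 : HasFDerivAt (A.psi c ∘ A.trans c d) ((fderiv ℝ (A.psi c) (A.trans c d p)).comp
      ((Matrix.mulVecLin (A.L c)).toContinuousLinearMap.comp (fderiv ℝ (A.psi d) p))) p := by
    refine (A.psi_diff c _).hasFDerivAt.comp p ?_
    exact ((Matrix.mulVecLin (A.L c)).toContinuousLinearMap.hasFDerivAt).comp p
      (hd.sub_const (A.o c))
  have h2 : HasFDerivAt (A.psi c ∘ A.trans c d) (fderiv ℝ (A.psi d) p) p :=
    hd.congr_of_eventuallyEq ((A.psi_trans_eventually c d hp hc).mono fun q hq => A.psi_phi c hq.2)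
  exact congrArg (fun T : Pt →L[ℝ] Amb N => T u) (h2.unique h1)

/-- Chart change of a two-form value. -/
theorem pullAt_trans (c d : Fin K) {p : Pt} (hp : p ∈ box) (hc : A.psi d p ∈ A.psi c '' box)
    (M : MN N) :
    A.pullAt d M p =
      (A.L c * A.dmat d p)ᵀ * A.pullAt c M (A.trans c d p) * (A.L c * A.dmat d p) := by
  simp only [Atlas.pullAt]
  conv_lhs => rw [A.dmat_trans c d hp hc]
  simp only [transpose_mul, Matrix.mul_assoc]

theorem pull_trans (c d : Fin K) {p : Pt} (hp : p ∈ box) (hc : A.psi d p ∈ A.psi c '' box)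
    (a : Amb N → MN N) :
    A.pull d a p =
      (A.L c * A.dmat d p)ᵀ * A.pull c a (A.trans c d p) * (A.L c * A.dmat d p) := by
  rw [Atlas.pull, Atlas.pull, A.pullAt_trans c d hp hc, Atlas.trans, A.psi_phi c hc]

/-- Every point lies well inside some chart. -/
theorem exists_chart {x : Amb N} (hx : x ∈ A.X) :
    ∃ c, A.chi c x ≠ 0 ∧ x ∈ A.psi c '' Metric.closedBall 0 (1 / 2) := by
  have h := A.chi_sum x hx
  obtain ⟨c, -, hc⟩ := Finset.exists_ne_zero_of_sum_ne_zero (h ▸ one_ne_zero : ∑ c, A.chi c x ≠ 0)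
  exact ⟨c, hc, A.chi_supp c x hx hc⟩

theorem mem_box_image {c : Fin K} {x : Amb N} (hx : x ∈ A.psi c '' Metric.closedBall 0 (1 / 2)) :
    x ∈ A.psi c '' box := Set.image_mono closedBall_subset_box hx

/-- Tangent vectors are in the range of the differential of every chart at the point. -/
theorem tan_in_chart {x v : Amb N} (hv : A.IsTan x v) (c : Fin K) (hc : x ∈ A.psi c '' box) :
    A.dmat c (A.phi c x) *ᵥ (A.L c *ᵥ v) = v := by
  obtain ⟨d, p, hp, u, rfl, rfl⟩ := hv
  conv_rhs => rw [A.dmat_trans c d hp hc, ← mulVec_mulVec]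
  rw [Atlas.trans, ← mulVec_mulVec]

theorem isTan_dmat (c : Fin K) {p : Pt} (hp : p ∈ box) (u : Pt) :
    A.IsTan (A.psi c p) (A.dmat c p *ᵥ u) := ⟨c, p, hp, u, rfl, rfl⟩

/-- The unit tangent vectors form a compact set. -/
theorem isCompact_unitTan : IsCompact A.unitTan := by
  have h : A.unitTan = ⋃ c, (fun z : Pt × Pt => (A.psi c z.1, A.dmat c z.1 *ᵥ z.2)) ''
      {z | z.1 ∈ Metric.closedBall 0 (1 / 2) ∧
        (A.dmat c z.1 *ᵥ z.2) ⬝ᵥ (A.dmat c z.1 *ᵥ z.2) = 1} := by
    ext ⟨x, v⟩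
    simp only [Set.mem_iUnion, Set.mem_image, Set.mem_setOf_eq, Atlas.unitTan, Prod.mk.injEq]
    constructor
    · rintro ⟨hx, hv, h1⟩
      obtain ⟨c, -, p, hp, rfl⟩ := A.exists_chart hx
      have h2 := A.tan_in_chart hv c ⟨p, closedBall_subset_box hp, rfl⟩
      rw [A.phi_psi c (closedBall_subset_box hp)] at h2
      exact ⟨c, (p, A.L c *ᵥ v), ⟨hp, by rw [h2]; exact h1⟩, rfl, h2⟩
    · rintro ⟨c, ⟨p, u⟩, ⟨hp, h1⟩, rfl, rfl⟩
      exact ⟨A.psi_mem c p (closedBall_subset_box hp), A.isTan_dmat c (closedBall_subset_box hp) u, h1⟩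
  rw [h]
  refine isCompact_iUnion fun c => ?_
  have hcont : Continuous fun z : Pt × Pt => A.dmat c z.1 *ᵥ z.2 := by
    have := fun a i => (A.dmat_smooth c a i).continuous
    unfold mulVec dotProduct
    fun_prop
  refine IsCompact.image ?_ (((A.psi_cont c).comp continuous_fst).prodMk hcont)
  set R : ℝ := ‖(Matrix.mulVecLin (A.L c)).toContinuousLinearMap‖
  refine ((isCompact_closedBall (0 : Pt) (1 / 2)).prod
    (isCompact_closedBall (0 : Pt) R)).of_isClosed_subset ?_ ?_
  · exact (Metric.isClosed_closedBall.preimage continuous_fst).inter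
      (isClosed_eq (Continuous.dotProduct hcont hcont) continuous_const)
  · rintro ⟨p, u⟩ ⟨hp, h1⟩
    refine ⟨hp, mem_closedBall_zero_iff.2 ?_⟩
    set v := A.dmat c p *ᵥ u
    have hv : ‖v‖ ≤ 1 := (pi_norm_le_iff_of_nonneg zero_le_one).2 fun a => by
      have h2 : v a * v a ≤ v ⬝ᵥ v :=
        Finset.single_le_sum (f := fun k => v k * v k) (fun k _ => mul_self_nonneg _)
          (Finset.mem_univ a)
      rw [h1] at h2
      rw [Real.norm_eq_abs]
      exact (sq_le_one_iff_abs_le_one (v a)).1 (by rw [sq]; exact h2)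
    have h3 := ((Matrix.mulVecLin (A.L c)).toContinuousLinearMap).le_opNorm v
    rw [show ((Matrix.mulVecLin (A.L c)).toContinuousLinearMap) v = u from
      A.L_mulVec_dmat c (closedBall_subset_box hp) u] at h3
    calc ‖u‖ ≤ R * ‖v‖ := h3
      _ ≤ R * 1 := mul_le_mul_of_nonneg_left hv (norm_nonneg _)
      _ = R := mul_one R

end Atlas

end Vale.Agent.P204.General
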