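import Mathlib

/-!
# P204: the statement for a general closed four-manifold

Two-forms and almost complex structures are fields on the tangent spaces, read in the charts.
Interface only: the conjecture is not proved here and nothing assumes it.
-/

namespace Vale.Agent.P204

open scoped Manifold ContDiff

/-- The model space. -/
abbrev R4 := EuclideanSpace ℝ (Fin 4)

universe u
variable {X : Type u} [TopologicalSpace X] [ChartedSpace R4 X] [IsManifold (𝓡 4) ∞ X]

/-- The differential of the inverse of the chart at `c`, read in the model space. -/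
noncomputable def chartInvDeriv (c : X) (p : R4) : R4 →L[ℝ] TangentSpace (𝓡 4) ((extChartAt (𝓡 4) c).symm p) :=
  mfderiv (𝓡 4) (𝓡 4) (extChartAt (𝓡 4) c).symm p

/-- A field of bilinear forms on the tangent spaces. -/
abbrev BilinField (X : Type u) [TopologicalSpace X] [ChartedSpace R4 X] :=
  ∀ x : X, TangentSpace (𝓡 4) x →L[ℝ] TangentSpace (𝓡 4) x →L[ℝ] ℝ

/-- A field of endomorphisms of the tangent spaces. -/
abbrev EndField (X : Type u) [TopologicalSpace X] [ChartedSpace R4 X] :=
  ∀ x : X, TangentSpace (𝓡 4) x →L[ℝ] TangentSpace (𝓡 4) x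

/-- The coefficient of a two-form in the chart at `c`. -/
noncomputable def coeff (σ : BilinField X) (c : X) (v w : R4) (p : R4) : ℝ :=
  σ ((extChartAt (𝓡 4) c).symm p) (chartInvDeriv c p v) (chartInvDeriv c p w)

/-- A smooth closed two-form. -/
def IsClosedTwoForm (σ : BilinField X) : Prop :=
  (∀ x v, σ x v v = 0) ∧ ∀ c : X,
    (∀ v w, ContDiffOn ℝ ∞ (coeff σ c v w) (extChartAt (𝓡 4) c).target) ∧
    ∀ p ∈ (extChartAt (𝓡 4) c).target, ∀ a b d : R4,
      fderiv ℝ (coeff σ c b d) p a + fderiv ℝ (coeff σ c d a) p b +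
        fderiv ℝ (coeff σ c a b) p d = 0

/-- A smooth almost complex structure. -/
def IsAlmostComplexStructure (J : EndField X) : Prop :=
  (∀ x v, J x (J x v) = -v) ∧ ∀ c : X, ∀ v : R4,
    ContDiffOn ℝ ∞ (fun p => mfderiv (𝓡 4) (𝓡 4) (extChartAt (𝓡 4) c)
      ((extChartAt (𝓡 4) c).symm p) (J _ (chartInvDeriv c p v)) : R4 → R4)
      (extChartAt (𝓡 4) c).target

/-- `σ` tames `J`. -/
def TamesJ (σ : BilinField X) (J : EndField X) : Prop :=
  ∀ x v, v ≠ 0 → 0 < σ x v (J x v)

/-- `σ` is invariant under `J`. -/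
def InvariantJ (σ : BilinField X) (J : EndField X) : Prop :=
  ∀ x v w, σ x (J x v) (J x w) = σ x v w

/-- Donaldson's conjecture: a tamed almost complex closed four-manifold has a compatible form. -/
def Conjecture : Prop :=
  ∀ (X : Type u) [TopologicalSpace X] [T2Space X] [SecondCountableTopology X] [CompactSpace X]
    [ConnectedSpace X] [ChartedSpace R4 X] [IsManifold (𝓡 4) ∞ X] (J : EndField X),
    IsAlmostComplexStructure J → (∃ σ, IsClosedTwoForm σ ∧ TamesJ σ J) →
      ∃ σ, IsClosedTwoForm σ ∧ TamesJ σ J ∧ InvariantJ σ J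

end Vale.Agent.P204
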