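import Mathlib
import Vale.Agent.P204.General.Statement
import Vale.Agent.P204.General.Basics

/-!
# P204 on a closed four-manifold: the interfaces between the modules

None of these is assumed by the final theorem; each is proved in its own file.
-/

open MeasureTheory Matrix Filter
open scoped ContDiff Topology

namespace Vale.Agent.P204.General

open Vale.Agent.P204.Torus

universe u

/-- Tamed implies compatible, for embedded atlases. -/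
def GeoStmt : Prop :=
  ∀ {N K : ℕ} (A : Atlas N K) (J : Amb N → MN N), IsACS A J →
    (∃ om, IsClosedX A om ∧ TamesX A J om) →
      ∃ s, IsClosedX A s ∧ TamesX A J s ∧ InvX A J s

/-- The bridge from charts to manifolds. -/
def BridgeStmt : Prop := GeoStmt → Conjecture.{u}

/-- Basic facts on the reference measure, the orientation and Stokes. -/
def BasicStmt : Prop :=
  ∀ {N K : ℕ} (A : Atlas N K) (J : Amb N → MN N), IsACS A J → ∃ c C : ℝ, 0 < c ∧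
    IsFiniteMeasure A.vol ∧ (∀ᵐ x ∂A.vol, x ∈ A.X) ∧
    (∀ x r, 0 ≤ r → (A.vol {y | ‖x - y‖ ≤ r}).toReal ≤ C * r ^ 4) ∧
    (∀ x ∈ A.X, ∀ y ∈ A.X, ∀ i k, |J x i k - J y i k| ≤ C * ‖x - y‖) ∧
    (∀ x ∈ A.X, ∀ M M', |A.wedgePt x M M'| ≤ C * Real.sqrt (A.sqX x M) * Real.sqrt (A.sqX x M')) ∧
    (∀ x ∈ A.X, ∀ M, Mᵀ = -M → c * A.sqX x (antiX J x M)
      ≤ A.wedgePt x (antiX J x M) (antiX J x M)) ∧
    (∀ x ∈ A.X, ∀ M M', Mᵀ = -M → M'ᵀ = -M' →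
      A.wedgePt x (inv11X J x M) (antiX J x M') = 0) ∧
    (∀ b a a', IsOneX A b → IsTestX A a → IsDOne A a b → IsClosedX A a' →
      A.wedgeInt a a' = 0)

/-- Module A: no compatible form gives an obstruction measure. -/
def DualStmt : Prop :=
  ∀ {N K : ℕ} (A : Atlas N K) (J : Amb N → MN N), IsACS A J →
    (¬ ∃ s, IsClosedX A s ∧ TamesX A J s ∧ InvX A J s) → ∃ m, ObsX A J m

/-- Module C: the obstruction extends to a functional killing all closed forms. -/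
def ExtStmt : Prop :=
  ∀ {N K : ℕ} (A : Atlas N K) (J : Amb N → MN N) m, IsACS A J → ObsX A J m →
    ∃ R C, IsExtX A J m R C

/-- The properties of the smoothing of width `ε`: operator, line kernel, scalar weight. -/
structure IsSmoothing {N K : ℕ} (A : Atlas N K) (J : Amb N → MN N) (c C ε : ℝ)
    (G : (Amb N → MN N) → (Amb N → MN N)) (kf : Amb N → Amb N × Amb N → MN N)
    (w : Amb N → Amb N → ℝ) : Prop where
  test : ∀ a, IsTestX A a → IsTestX A (G a)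
  closed : ∀ a, IsClosedX A a → IsClosedX A (G a)
  cont : ∀ i k, Continuous fun z : A.X × A.unitTan => kf z.1 z.2 i k
  skew : ∀ x p, (kf x p)ᵀ = -kf x p
  transpose : ∀ a, IsTestX A a → ∀ p ∈ A.unitTan,
    p.2 ⬝ᵥ (G a p.1 *ᵥ (J p.1 *ᵥ p.2)) = A.wedgeInt (fun x => kf x p) a
  size : ∀ x ∈ A.X, ∀ p ∈ A.unitTan,
    A.sqX x (kf x p) ≤ (C * kern ε ‖x - p.1‖) ^ 2
  anti : ∀ x ∈ A.X, ∀ p ∈ A.unitTan,
    A.sqX x (antiX J x (kf x p)) ≤ (C * ε * kern ε ‖x - p.1‖) ^ 2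
  weight : ∀ x ∈ A.X, ∀ y ∈ A.X,
    0 ≤ w x y ∧ w x y ≤ C * kern ε ‖x - y‖ ∧ (‖x - y‖ ≤ c * ε → c / ε ^ 4 ≤ w x y)
  main : ∀ x ∈ A.X, ∀ p ∈ A.unitTan, ∀ M : MN N, Mᵀ = -M →
    |A.wedgePt x (kf x p) M
        - w x p.1 * ((A.proj x *ᵥ p.2) ⬝ᵥ (M *ᵥ (A.proj x *ᵥ (J p.1 *ᵥ p.2))))|
      ≤ C * ε ^ 2 * kern ε ‖x - p.1‖ * Real.sqrt (A.sqX x M)
  pair_low : ∀ p ∈ A.unitTan, ∀ q ∈ A.unitTan,
    -(C * ε ^ 2 * kern ε ‖p.1 - q.1‖) ≤ A.wedgeInt (fun x => kf x p) (fun x => kf x q) ∧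
    (‖p.1 - q.1‖ ≤ c * ε → c / ε ^ 4 * A.offX J q.1 q.2 p.2 - C / ε ^ 2
      ≤ A.wedgeInt (fun x => kf x p) (fun x => kf x q))

/-- Module B: the smoothed extension. -/
def SmoothStmt : Prop :=
  ∀ {N K : ℕ} (A : Atlas N K) (J : Amb N → MN N) m R C₀,
    IsACS A J → ObsX A J m → IsExtX A J m R C₀ →
    ∃ c C ε₀ : ℝ, 0 < c ∧ 0 < ε₀ ∧
    ∃ (G : ℝ → (Amb N → MN N) → (Amb N → MN N))
      (kf : ℝ → Amb N → Amb N × Amb N → MN N) (w : ℝ → Amb N → Amb N → ℝ),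
    (∀ a, IsTestX A a → Tendsto (fun ε => R (G ε a)) (𝓝[>] 0) (𝓝 (R a))) ∧
    ∀ ε : ℝ, 0 < ε → ε ≤ ε₀ → IsSmoothing A J c C ε (G ε) (kf ε) (w ε) ∧
      ∃ V, L2X A V ∧ (∀ x, (V x)ᵀ = -V x) ∧
        (∀ a, IsTestX A a → R (G ε a) = A.wedgeInt V a) ∧
        A.n2 (fun x => inv11X J x (V x)) ≤ C * ε * A.n2 V ∧
        (∫ p, ∫ q, A.wedgeInt (fun x => kf ε x p) (fun x => kf ε x q) ∂m ∂m)
          + 2 * (∫ p, A.wedgeInt V (fun x => kf ε x p) ∂m) + A.wedgeInt V V = 0 ∧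
        (∀ m' : Measure (Amb N × Amb N), IsFiniteMeasure m' → (∀ᵐ p ∂m', p ∈ A.unitTan) →
          (∀ a b, IsOneX A b → IsTestX A a → IsDOne A a b → tcurX J m' a = 0) →
          (∫ p, ∫ q, A.wedgeInt (fun x => kf ε x p) (fun x => kf ε x q) ∂m ∂m')
            + (∫ p, A.wedgeInt V (fun x => kf ε x p) ∂m') = 0) ∧
        ∀ ρ, L2X A ρ → (∀ a, IsTestX A a → R a = A.wedgeInt ρ a) →
          ∀ᵐ x ∂A.vol,
            Real.sqrt (A.sqX x (V x)) ≤ C * A.conv ε (fun y => Real.sqrt (A.sqX y (ρ y))) x ∧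
            Real.sqrt (A.sqX x (inv11X J x (V x)))
              ≤ C * ε * A.conv ε (fun y => Real.sqrt (A.sqX y (ρ y))) x

/-- Module F: the test potential. -/
def TestStmt : Prop :=
  ∀ {N K : ℕ} (A : Atlas N K) (J : Amb N → MN N), IsACS A J → ∃ c C : ℝ, 0 < c ∧
    ∀ s : ℝ, 0 < s → s ≤ 1 →
    (∀ x ∈ A.X, IsClosedX A (A.ddPot J s x)) ∧
    (∀ x ∈ A.X, ∃ b, IsOneX A b ∧ IsDOne A (A.ddPot J s x) b) ∧
    Continuous (fun z : A.X × A.X => A.pot J s z.1 z.2) ∧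
    (∀ i k, Continuous fun z : A.X × A.X => A.ddPot J s z.1 z.2 i k) ∧
    (∀ c₁ c₂, ContDiffOn ℝ ∞ (fun z : Pt × Pt => A.pot J s (A.psi c₁ z.1) (A.psi c₂ z.2))
      (box ×ˢ box)) ∧
    (∀ c₁ c₂ i k, ContDiffOn ℝ ∞
      (fun z : Pt × Pt => A.pullAt c₂ (A.ddPot J s (A.psi c₁ z.1) (A.psi c₂ z.2)) z.2 i k)
      (box ×ˢ box)) ∧
    (∀ x ∈ A.X, ∀ y ∈ A.X, x ≠ y → ∀ i k,
      Tendsto (fun t => A.ddPot J t x y i k) (𝓝[>] 0) (𝓝 (A.ddPot J 0 x y i k))) ∧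
    ∀ x ∈ A.X, ∀ y ∈ A.X,
      c * rsX s x y ^ 2 ≤ A.q0 J x y + s ^ 2 ∧ A.q0 J x y + s ^ 2 ≤ C * rsX s x y ^ 2 ∧
      Real.sqrt (A.sqX y (A.ddPot J s x y)) ≤ C / rsX s x y ^ 2 ∧
      Real.sqrt (A.sqX y (antiX J y (A.ddPot J s x y))) ≤ C / rsX s x y ∧
      (∀ l, A.IsTan y l → l ⬝ᵥ l = 1 →
        |l ⬝ᵥ (A.ddPot J s x y *ᵥ (J y *ᵥ l))
          - 2 * (A.offX J y l (x - y) + s ^ 2 * (l ⬝ᵥ (A.gMat J y *ᵥ l)))
            / (A.q0 J x y + s ^ 2) ^ 2| ≤ C / rsX s x y) ∧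
      ∀ c₀, ∀ p₀ ∈ box, A.psi c₀ p₀ = x → ∀ v : Pt,
        (A.dmat c₀ p₀ *ᵥ v) ⬝ᵥ (A.dmat c₀ p₀ *ᵥ v) = 1 →
        ∃ (E : Amb N → Amb N) (D : Amb N → MN N), IsOneX A E ∧ IsTestX A D ∧ IsDOne A D E ∧
        ∀ z ∈ A.X,
          let M : MN N := (Matrix.of fun i k => fderiv ℝ
            (fun t => A.pot J s (A.psi c₀ t) z * A.ddPot J s (A.psi c₀ t) z i k) p₀ v) - D z
          Real.sqrt (A.sqX z M) ≤ C / rsX s x z ^ 3 ∧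
          ∀ l, A.IsTan z l → l ⬝ᵥ l = 1 →
            |l ⬝ᵥ (M *ᵥ (J z *ᵥ l))| ≤ C * (Real.sqrt (A.offX J z l (x - z))
                * Real.sqrt (A.offX J z l (A.dmat c₀ p₀ *ᵥ v)) / rsX s x z ^ 4
              + Real.sqrt (A.offX J z l (x - z)) / rsX s x z ^ 3
              + Real.sqrt (A.offX J z l (A.dmat c₀ p₀ *ᵥ v)) / rsX s x z ^ 2 + 1 / rsX s x z)

/-- Module G: the a priori bounds. -/
def AprioriStmt : Prop :=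
  ∀ {N K : ℕ} (A : Atlas N K) (J : Amb N → MN N) m R C,
    IsACS A J → ObsX A J m → IsExtX A J m R C → ∃ ρ C', L2X A ρ ∧
    (∀ x, (ρ x)ᵀ = -ρ x) ∧ (∀ x ∈ A.X, antiX J x (ρ x) = ρ x) ∧
    (∀ a, IsTestX A a → R a = A.wedgeInt ρ a) ∧
    (∀ x r, 0 < r → (m {p | ‖x - p.1‖ ≤ r}).toReal ≤ C' * r ^ 2) ∧
    (∀ x ∈ A.X, ∀ s, 0 < s → s ≤ 1 →
      ∫ p, A.offX J p.1 p.2 (x - p.1) / rsX s x p.1 ^ 4 ∂m ≤ C') ∧
    (∀ s, 0 < s → s ≤ 1 / 2 →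
      ∫ p, ∫ q, A.offX J q.1 q.2 p.2 / rsX s p.1 q.1 ^ 4 ∂m ∂m ≤ C' * Real.log (1 / s))

/-- Module H: the weighted current is closed. -/
def ClosedStmt : Prop :=
  ∀ {N K : ℕ} (A : Atlas N K) (J : Amb N → MN N) m R C,
    IsACS A J → ObsX A J m → IsExtX A J m R C → ∃ (ν : Amb N → ℝ) (C' : ℝ),
    Measurable ν ∧ (∀ x, 0 ≤ ν x ∧ ν x ≤ C') ∧
    (∀ x ∈ A.X, ∀ η, 0 < η → ∀ᶠ r in 𝓝[>] (0 : ℝ),
      (m {p | ‖x - p.1‖ ≤ r}).toReal ≤ (C' * ν x + η) * r ^ 2) ∧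
    ∀ g : ℝ → ℝ, ContDiff ℝ ∞ g → g 0 = 0 →
      ∀ a b, IsOneX A b → IsTestX A a → IsDOne A a b →
        ∫ p, g (ν p.1) * (p.2 ⬝ᵥ (a p.1 *ᵥ (J p.1 *ᵥ p.2))) ∂m = 0

end Vale.Agent.P204.General
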