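import Mathlib
import Vale.Agent.P204.General.Charts

/-!
# P204 on a closed four-manifold: tangent vectors, projection, metric, Lipschitz bounds
-/

open MeasureTheory Matrix Filter Set
open scoped ContDiff Topology

namespace Vale.Agent.P204.General

open Vale.Agent.P204.Torus

variable {N K : ℕ} (A : Atlas N K)

namespace Atlas

theorem supp_box {x : Amb N} (hx : x ∈ A.X) {c : Fin K} (hc : A.chi c x ≠ 0) :
    x ∈ A.psi c '' box := A.mem_box_image (A.chi_supp c x hx hc)

theorem box_image_subset (c : Fin K) : A.psi c '' box ⊆ A.X := by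
  rintro x ⟨p, hp, rfl⟩; exact A.psi_mem c p hp

/-- Tangency, read in one chart. -/
theorem isTan_iff {x : Amb N} {c : Fin K} (hc : x ∈ A.psi c '' box) (v : Amb N) :
    A.IsTan x v ↔ A.dmat c (A.phi c x) *ᵥ (A.L c *ᵥ v) = v := by
  refine ⟨fun h => A.tan_in_chart h c hc, fun h => ?_⟩
  exact ⟨c, A.phi c x, A.phi_mem c hc, A.L c *ᵥ v, A.psi_phi c hc, h⟩

theorem isTan_add {x v w : Amb N} (hv : A.IsTan x v) (hw : A.IsTan x w) : A.IsTan x (v + w) := by
  obtain ⟨c, p, hp, u, rfl, rfl⟩ := hv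
  have h := A.tan_in_chart hw c ⟨p, hp, rfl⟩
  rw [A.phi_psi c hp] at h
  exact ⟨c, p, hp, u + A.L c *ᵥ w, rfl, by rw [mulVec_add, h]⟩

theorem isTan_smul {x v : Amb N} (t : ℝ) (hv : A.IsTan x v) : A.IsTan x (t • v) := by
  obtain ⟨c, p, hp, u, rfl, rfl⟩ := hv
  exact ⟨c, p, hp, t • u, rfl, mulVec_smul _ _ _⟩

theorem isTan_zero {x : Amb N} (hx : x ∈ A.X) : A.IsTan x 0 := by
  obtain ⟨c, -, p, hp, rfl⟩ := A.exists_chart hx
  exact ⟨c, p, closedBall_subset_box hp, 0, rfl, mulVec_zero _⟩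

theorem isTan_neg {x v : Amb N} (hv : A.IsTan x v) : A.IsTan x (-v) := by
  simpa using A.isTan_smul (-1) hv

theorem mem_of_isTan {x v : Amb N} (hv : A.IsTan x v) : x ∈ A.X := by
  obtain ⟨c, p, hp, u, rfl, rfl⟩ := hv
  exact A.psi_mem c p hp

theorem isTan_sum {x : Amb N} (hx : x ∈ A.X) {ι : Type*} (s : Finset ι) {f : ι → Amb N}
    (hf : ∀ i ∈ s, A.IsTan x (f i)) : A.IsTan x (∑ i ∈ s, f i) := by
  classical
  induction s using Finset.induction_on with
  | empty => simpa using A.isTan_zero hx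
  | insert a t ha ih =>
    rw [Finset.sum_insert ha]
    exact A.isTan_add (hf a (Finset.mem_insert_self a t))
      (ih fun i hi => hf i (Finset.mem_insert_of_mem hi))

/-- The Gram matrix of a chart differential is invertible. -/
theorem gram_det_ne (c : Fin K) {p : Pt} (hp : p ∈ box) :
    ((A.dmat c p)ᵀ * A.dmat c p).det ≠ 0 := by
  intro h
  obtain ⟨u, hu, hu'⟩ := Matrix.exists_mulVec_eq_zero_iff.2 h
  rw [← mulVec_mulVec] at hu'
  have h1 : (A.dmat c p *ᵥ u) ⬝ᵥ (A.dmat c p *ᵥ u) = 0 := by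
    have := congrArg (fun w => u ⬝ᵥ w) hu'
    rw [dotProduct_mulVec, vecMul_transpose, dotProduct_zero] at this
    exact this
  refine hu ?_
  rw [← A.L_mulVec_dmat c hp u, dotProduct_self_eq_zero.1 h1, mulVec_zero]

theorem gram_inv_mul (c : Fin K) {p : Pt} (hp : p ∈ box) :
    ((A.dmat c p)ᵀ * A.dmat c p)⁻¹ * ((A.dmat c p)ᵀ * A.dmat c p) = 1 :=
  Matrix.nonsing_inv_mul _ (isUnit_iff_ne_zero.2 (A.gram_det_ne c hp))

theorem proj_mulVec (x v : Amb N) : A.proj x *ᵥ v = ∑ c, A.chi c x • (A.dmat c (A.phi c x) *ᵥ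
    (((A.dmat c (A.phi c x))ᵀ * A.dmat c (A.phi c x))⁻¹ *ᵥ ((A.dmat c (A.phi c x))ᵀ *ᵥ v))) := by
  simp only [Atlas.proj, Matrix.sum_mulVec, smul_mulVec, mulVec_mulVec, Matrix.mul_assoc]

theorem proj_tan {x : Amb N} (hx : x ∈ A.X) (v : Amb N) : A.IsTan x (A.proj x *ᵥ v) := by
  rw [A.proj_mulVec]
  refine A.isTan_sum hx _ fun c _ => ?_
  rcases eq_or_ne (A.chi c x) 0 with h | h
  · simpa [h] using A.isTan_zero hx
  · have hc := A.supp_box hx h
    exact A.isTan_smul _ ⟨c, _, A.phi_mem c hc, _, A.psi_phi c hc, rfl⟩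

theorem proj_fix {x v : Amb N} (hv : A.IsTan x v) : A.proj x *ᵥ v = v := by
  have hx := A.mem_of_isTan hv
  rw [A.proj_mulVec]
  have e : ∀ c ∈ (Finset.univ : Finset (Fin K)), A.chi c x • (A.dmat c (A.phi c x) *ᵥ
      (((A.dmat c (A.phi c x))ᵀ * A.dmat c (A.phi c x))⁻¹ *ᵥ ((A.dmat c (A.phi c x))ᵀ *ᵥ v)))
      = A.chi c x • v := fun c _ => by
    rcases eq_or_ne (A.chi c x) 0 with h | h
    · simp [h]
    · have hc := A.supp_box hx h
      have hp := A.phi_mem c hc
      conv_lhs => rw [← A.tan_in_chart hv c hc]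
      rw [mulVec_mulVec (A.L c *ᵥ v) (A.dmat c (A.phi c x))ᵀ,
        mulVec_mulVec (A.L c *ᵥ v) _ ((A.dmat c (A.phi c x))ᵀ * A.dmat c (A.phi c x)),
        A.gram_inv_mul c hp, one_mulVec, A.tan_in_chart hv c hc]
  rw [Finset.sum_congr rfl e, ← Finset.sum_smul, A.chi_sum x hx, one_smul]

theorem proj_proj {x : Amb N} (hx : x ∈ A.X) : A.proj x * A.proj x = A.proj x := by
  refine Matrix.toLin'.injective (LinearMap.ext fun v => ?_)
  simp only [Matrix.toLin'_apply, ← mulVec_mulVec, A.proj_fix (A.proj_tan hx v)]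

theorem proj_dmat (c : Fin K) {p : Pt} (hp : p ∈ box) :
    A.proj (A.psi c p) * A.dmat c p = A.dmat c p := by
  refine Matrix.toLin'.injective (LinearMap.ext fun u => ?_)
  simp only [Matrix.toLin'_apply, ← mulVec_mulVec, A.proj_fix (A.isTan_dmat c hp u)]

section J
variable {A}
variable {J : Amb N → MN N} (hJ : IsACS A J)
include hJ

theorem J_chart {x : Amb N} {c : Fin K} (hc : x ∈ A.psi c '' box) (u : Pt) :
    J x *ᵥ (A.dmat c (A.phi c x) *ᵥ u) = A.dmat c (A.phi c x) *ᵥ (A.jc J c (A.phi c x) *ᵥ u) := by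
  have h := hJ.tangent c _ (A.phi_mem c hc)
  rw [A.psi_phi c hc] at h
  rw [mulVec_mulVec, h, ← mulVec_mulVec]

theorem L_J {x v : Amb N} (hv : A.IsTan x v) {c : Fin K} (hc : x ∈ A.psi c '' box) :
    A.L c *ᵥ (J x *ᵥ v) = A.jc J c (A.phi c x) *ᵥ (A.L c *ᵥ v) := by
  conv_lhs => rw [← A.tan_in_chart hv c hc, J_chart hJ hc]
  rw [A.L_mulVec_dmat c (A.phi_mem c hc)]

theorem J_proj {x : Amb N} (hx : x ∈ A.X) (v : Amb N) : J x *ᵥ (A.proj x *ᵥ v) = J x *ᵥ v := by
  rw [mulVec_mulVec, hJ.normal x hx]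

theorem J_tan {x : Amb N} (hx : x ∈ A.X) (v : Amb N) : A.IsTan x (J x *ᵥ v) := by
  rw [← J_proj hJ hx]
  obtain ⟨c, -, hc'⟩ := A.exists_chart hx
  have hc := A.mem_box_image hc'
  rw [← A.tan_in_chart (A.proj_tan hx v) c hc, J_chart hJ hc]
  exact ⟨c, _, A.phi_mem c hc, _, A.psi_phi c hc, rfl⟩

theorem J_J {x v : Amb N} (hv : A.IsTan x v) : J x *ᵥ (J x *ᵥ v) = -v := by
  obtain ⟨c, -, hc'⟩ := A.exists_chart (A.mem_of_isTan hv)
  have hc := A.mem_box_image hc'
  conv_lhs => rw [← A.tan_in_chart hv c hc, J_chart hJ hc, J_chart hJ hc]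
  rw [mulVec_mulVec (A.L c *ᵥ v) (A.jc J c (A.phi c x)), hJ.sq c _ (A.phi_mem c hc), neg_mulVec,
    one_mulVec, mulVec_neg, A.tan_in_chart hv c hc]

theorem proj_mul_J {x : Amb N} (hx : x ∈ A.X) : A.proj x * J x = J x := by
  refine Matrix.toLin'.injective (LinearMap.ext fun v => ?_)
  simp only [Matrix.toLin'_apply, ← mulVec_mulVec, A.proj_fix (J_tan hJ hx v)]

theorem J_mul_J {x : Amb N} (hx : x ∈ A.X) : J x * J x = -A.proj x := by
  refine Matrix.toLin'.injective (LinearMap.ext fun v => ?_)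
  simp only [Matrix.toLin'_apply, ← mulVec_mulVec, neg_mulVec]
  rw [← J_proj hJ hx v, J_J hJ (A.proj_tan hx v)]

omit hJ in
theorem ev_gH_symm (j : M4) (a b : Pt) : ev (gH j) a b = ev (gH j) b a := by
  have e : ∀ a b, ev (gH j) a b = (a ⬝ᵥ b + (j *ᵥ a) ⬝ᵥ (j *ᵥ b)) / 2 := fun a b => by
    simp only [ev, gH, smul_mulVec, add_mulVec, one_mulVec, ← mulVec_mulVec, dotProduct_smul,
      dotProduct_add, smul_eq_mul, dotProduct_mulVec a jᵀ, vecMul_transpose]
    ring
  rw [e, e, dotProduct_comm a b, dotProduct_comm (j *ᵥ a)]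

omit hJ in
theorem ev_gH_j {j : M4} (hj : j * j = -1) (a b : Pt) :
    ev (gH j) (j *ᵥ a) (j *ᵥ b) = ev (gH j) a b := by
  simp only [ev, gH, smul_mulVec, add_mulVec, one_mulVec, ← mulVec_mulVec, dotProduct_smul,
    dotProduct_add, smul_eq_mul, dotProduct_mulVec _ jᵀ, vecMul_transpose]
  rw [mulVec_mulVec b j j, mulVec_mulVec a j j, hj, neg_mulVec, neg_mulVec, one_mulVec, one_mulVec,
    dotProduct_neg, neg_dotProduct, neg_neg]
  ring

omit hJ in
theorem g_eq (x u w : Amb N) : u ⬝ᵥ (A.gMat J x *ᵥ w)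
    = ∑ c, A.chi c x * ev (gH (A.jc J c (A.phi c x))) (A.L c *ᵥ u) (A.L c *ᵥ w) := by
  simp only [Atlas.gMat, Matrix.sum_mulVec, smul_mulVec, dotProduct_sum, dotProduct_smul,
    smul_eq_mul, ev]
  refine Finset.sum_congr rfl fun c _ => ?_
  rw [← mulVec_mulVec, ← mulVec_mulVec, dotProduct_mulVec u, vecMul_transpose]

omit hJ in
theorem g_symm (x u w : Amb N) : u ⬝ᵥ (A.gMat J x *ᵥ w) = w ⬝ᵥ (A.gMat J x *ᵥ u) := by
  simp only [g_eq, ev_gH_symm]

theorem g_J {x u w : Amb N} (hu : A.IsTan x u) (hw : A.IsTan x w) :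
    (J x *ᵥ u) ⬝ᵥ (A.gMat J x *ᵥ (J x *ᵥ w)) = u ⬝ᵥ (A.gMat J x *ᵥ w) := by
  simp only [g_eq]
  refine Finset.sum_congr rfl fun c _ => ?_
  rcases eq_or_ne (A.chi c x) 0 with h | h
  · simp [h]
  · have hc := A.supp_box (A.mem_of_isTan hu) h
    rw [L_J hJ hu hc, L_J hJ hw hc, ev_gH_j (hJ.sq c _ (A.phi_mem c hc))]

theorem g_self_J {x u : Amb N} (hu : A.IsTan x u) : u ⬝ᵥ (A.gMat J x *ᵥ (J x *ᵥ u)) = 0 := by
  have h := g_J hJ hu (J_tan hJ (A.mem_of_isTan hu) u)
  rw [J_J hJ hu, mulVec_neg, dotProduct_neg, g_symm x (J x *ᵥ u) u] at h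
  linarith

omit hJ in
theorem g_nonneg (x u : Amb N) : 0 ≤ u ⬝ᵥ (A.gMat J x *ᵥ u) := by
  rw [g_eq]
  refine Finset.sum_nonneg fun c _ => mul_nonneg (A.chi_nonneg c x) ?_
  simp only [ev, gH, smul_mulVec, add_mulVec, one_mulVec, ← mulVec_mulVec, dotProduct_smul,
    dotProduct_add, smul_eq_mul, dotProduct_mulVec _ (A.jc J c (A.phi c x))ᵀ, vecMul_transpose]
  exact mul_nonneg (by norm_num) (add_nonneg (Finset.sum_nonneg fun i _ => mul_self_nonneg _)
    (Finset.sum_nonneg fun i _ => mul_self_nonneg _))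

omit hJ in
theorem g_pos {x u : Amb N} (hu : A.IsTan x u) (h0 : u ≠ 0) : 0 < u ⬝ᵥ (A.gMat J x *ᵥ u) := by
  obtain ⟨c, hc, hc'⟩ := A.exists_chart (A.mem_of_isTan hu)
  rw [g_eq]
  set q := fun c : Fin K => A.L c *ᵥ u
  have hq : ∀ d, 0 ≤ ev (gH (A.jc J d (A.phi d x))) (q d) (q d) := fun d => by
    simp only [ev, gH, smul_mulVec, add_mulVec, one_mulVec, ← mulVec_mulVec, dotProduct_smul,
      dotProduct_add, smul_eq_mul, dotProduct_mulVec _ (A.jc J d (A.phi d x))ᵀ, vecMul_transpose]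
    exact mul_nonneg (by norm_num) (add_nonneg (Finset.sum_nonneg fun i _ => mul_self_nonneg _)
      (Finset.sum_nonneg fun i _ => mul_self_nonneg _))
  refine Finset.sum_pos' (fun d _ => mul_nonneg (A.chi_nonneg d x) (hq d))
    ⟨c, Finset.mem_univ c, mul_pos (lt_of_le_of_ne (A.chi_nonneg c x) (Ne.symm hc)) ?_⟩
  have hu' : q c ≠ 0 := fun h => h0 (by
    rw [← A.tan_in_chart hu c (A.mem_box_image hc'), show A.L c *ᵥ u = 0 from h, mulVec_zero])
  simp only [q] at hu'
  simp only [ev, gH, smul_mulVec, add_mulVec, one_mulVec, ← mulVec_mulVec, dotProduct_smul,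
    dotProduct_add, smul_eq_mul, dotProduct_mulVec _ (A.jc J c (A.phi c x))ᵀ, vecMul_transpose]
  refine mul_pos (by norm_num) (add_pos_of_pos_of_nonneg ?_ (Finset.sum_nonneg fun i _ => mul_self_nonneg _))
  exact lt_of_le_of_ne (Finset.sum_nonneg fun i _ => mul_self_nonneg _)
    fun h => hu' (dotProduct_self_eq_zero.1 h.symm)

theorem offX_nonneg {y l : Amb N} (hl : A.IsTan y l) (v : Amb N) : 0 ≤ A.offX J y l v := by
  set g := fun u w : Amb N => u ⬝ᵥ (A.gMat J y *ᵥ w) with hg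
  set a := A.proj y *ᵥ v
  show 0 ≤ g a a * g l l - g a l ^ 2 - g a (J y *ᵥ l) ^ 2
  rcases eq_or_ne l 0 with rfl | h0
  · simp [hg]
  have hpos : 0 < g l l := g_pos hl h0
  have h1 := g_nonneg (A := A) (J := J) y (g l l • a - g a l • l - g a (J y *ᵥ l) • (J y *ᵥ l))
  have e : (g l l • a - g a l • l - g a (J y *ᵥ l) • (J y *ᵥ l)) ⬝ᵥ
      (A.gMat J y *ᵥ (g l l • a - g a l • l - g a (J y *ᵥ l) • (J y *ᵥ l)))
      = g l l * (g a a * g l l - g a l ^ 2 - g a (J y *ᵥ l) ^ 2) := by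
    have e1 : g l (J y *ᵥ l) = 0 := g_self_J hJ hl
    have e2 : g (J y *ᵥ l) (J y *ᵥ l) = g l l := g_J hJ hl hl
    have e3 : g l a = g a l := g_symm _ _ _
    have e4 : g (J y *ᵥ l) a = g a (J y *ᵥ l) := g_symm _ _ _
    have e5 : g (J y *ᵥ l) l = 0 := (g_symm _ _ _).trans e1
    simp only [hg] at e1 e2 e3 e4 e5
    simp only [hg, mulVec_sub, mulVec_smul, dotProduct_sub, sub_dotProduct, dotProduct_smul,
      smul_dotProduct, smul_eq_mul, e1, e2, e3, e4, e5]
    ring
  rw [e] at h1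
  exact nonneg_of_mul_nonneg_right h1 hpos

end J

theorem chi_cont (c : Fin K) : Continuous (A.chi c) := (A.chi_smooth c).continuous

theorem isClosed_half (c : Fin K) : IsClosed (A.psi c '' Metric.closedBall 0 (1 / 2)) :=
  ((isCompact_closedBall _ _).image (A.psi_cont c)).isClosed

/-- A coefficient cut off by the partition is continuous on the manifold. -/
theorem continuousOn_term (c : Fin K) {F : Pt → ℝ} (hF : ContinuousOn F box) :
    ContinuousOn (fun x => A.chi c x * F (A.phi c x)) A.X := by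
  intro x hx
  by_cases hc : x ∈ A.psi c '' Metric.closedBall 0 (1 / 2)
  · have hp := A.phi_mem c (A.mem_box_image hc)
    exact ((A.chi_cont c).continuousAt.mul ((hF.continuousAt (isOpen_box.mem_nhds hp)).comp
      (A.phi_cont c).continuousAt)).continuousWithinAt
  · have h : ∀ᶠ y in 𝓝[A.X] x, A.chi c y * F (A.phi c y) = 0 := by
      filter_upwards [nhdsWithin_le_nhds ((A.isClosed_half c).isOpen_compl.mem_nhds hc),
        self_mem_nhdsWithin] with y hy hyX
      by_contra hne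
      exact hy (A.chi_supp c y hyX (left_ne_zero_of_mul hne))
    have h0 : A.chi c x * F (A.phi c x) = 0 := by
      by_contra hne
      exact hc (A.chi_supp c x hx (left_ne_zero_of_mul hne))
    exact (continuousWithinAt_const (b := (0 : ℝ))).congr_of_eventuallyEq h h0

/-- A smooth coefficient cut off by the partition is Lipschitz on the manifold. -/
theorem lipschitz_term (c : Fin K) {F : Pt → ℝ} (hF : ContDiffOn ℝ ∞ F box) :
    ∃ C, 0 ≤ C ∧ ∀ x ∈ A.X, ∀ y ∈ A.X,
      |A.chi c x * F (A.phi c x) - A.chi c y * F (A.phi c y)| ≤ C * ‖x - y‖ := by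
  have hsub : Metric.closedBall (0 : Pt) (3 / 4) ⊆ box := Metric.closedBall_subset_ball (by norm_num)
  set H : Pt → ℝ := fun p => A.chi c (A.psi c p) * F p
  have hH : ContDiffOn ℝ ∞ H box :=
    (((A.chi_smooth c).comp (A.psi_smooth c)).contDiffOn).mul hF
  obtain ⟨M, hM⟩ := (hH.mono hsub).exists_lipschitzOnWith (by norm_num) (convex_closedBall _ _)
    (isCompact_closedBall _ _)
  obtain ⟨B, hB⟩ := A.compact.exists_bound_of_continuousOn (A.continuousOn_term c hF.continuousOn)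
  obtain ⟨U, hU, hXU⟩ := A.open_image c
  set V : Set (Amb N) := U ∩ A.phi c ⁻¹' Metric.ball 0 (3 / 4)
  have hV : IsOpen V := hU.inter (Metric.isOpen_ball.preimage (A.phi_cont c))
  have hdisj : Disjoint (A.psi c '' Metric.closedBall 0 (1 / 2)) (A.X ∩ Vᶜ) := by
    rw [Set.disjoint_left]
    rintro z ⟨p, hp, rfl⟩ ⟨hz, hzV⟩
    have hb := closedBall_subset_box hp
    refine hzV ⟨(hXU.symm ▸ ⟨p, hb, rfl⟩ : A.psi c p ∈ A.X ∩ U).2, ?_⟩
    rw [Set.mem_preimage, A.phi_psi c hb]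
    exact Metric.closedBall_subset_ball (by norm_num) hp
  obtain ⟨δ, hδ, hd⟩ := hdisj.exists_thickenings
    ((isCompact_closedBall _ _).image (A.psi_cont c)) (A.compact.isClosed.inter hV.isClosed_compl)
  set Lc := ‖(Matrix.mulVecLin (A.L c)).toContinuousLinearMap‖
  refine ⟨M * Lc + 2 * max B 0 / δ, by positivity, ?_⟩
  have key : ∀ x ∈ A.X, ∀ y ∈ A.X, A.chi c x ≠ 0 →
      |A.chi c x * F (A.phi c x) - A.chi c y * F (A.phi c y)|
        ≤ (M * Lc + 2 * max B 0 / δ) * ‖x - y‖ := by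
    intro x hx y hy hne
    have hxK := A.chi_supp c x hx hne
    by_cases hyV : y ∈ V
    · have hyb : y ∈ A.psi c '' box := hXU ▸ ⟨hy, hyV.1⟩
      obtain ⟨p, hp, rfl⟩ := hxK
      have hpb := closedBall_subset_box hp
      have hq : A.phi c y ∈ Metric.closedBall (0 : Pt) (3 / 4) := Metric.ball_subset_closedBall hyV.2
      have h := hM.dist_le_mul p (Metric.closedBall_subset_closedBall (by norm_num) hp) (A.phi c y) hq
      simp only [H, A.psi_phi c hyb, dist_eq_norm] at h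
      rw [A.phi_psi c hpb]
      refine h.trans ?_
      have hl : ‖p - A.phi c y‖ ≤ Lc * ‖A.psi c p - y‖ := by
        have e : p - A.phi c y = (Matrix.mulVecLin (A.L c)).toContinuousLinearMap (A.psi c p - y) := by
          conv_lhs => rw [← A.phi_psi c hpb]
          simp [Atlas.phi, mulVec_sub]
        rw [e]; exact ContinuousLinearMap.le_opNorm _ _
      rw [add_mul]
      refine le_add_of_le_of_nonneg ?_ (by positivity)
      rw [mul_assoc]
      exact mul_le_mul_of_nonneg_left hl M.2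
    · have hfar : δ ≤ ‖x - y‖ := by
        by_contra hlt
        push Not at hlt
        refine Set.disjoint_left.1 hd (Metric.self_subset_thickening hδ _ hxK) ?_
        exact Metric.mem_thickening_iff.2 ⟨y, ⟨hy, hyV⟩, by rwa [dist_eq_norm]⟩
      have h1 := hB x hx
      have h2 := hB y hy
      rw [Real.norm_eq_abs] at h1 h2
      refine ((abs_sub _ _).trans (add_le_add (h1.trans (le_max_left _ 0)) (h2.trans (le_max_left _ 0)))).trans ?_
      rw [add_mul]
      refine le_add_of_nonneg_of_le (by positivity) ?_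
      rw [div_mul_eq_mul_div, le_div_iff₀ hδ, ← two_mul]
      exact mul_le_mul_of_nonneg_left hfar (by positivity)
  intro x hx y hy
  rcases eq_or_ne (A.chi c x) 0 with hx0 | hx0
  · rcases eq_or_ne (A.chi c y) 0 with hy0 | hy0
    · simp only [hx0, hy0, zero_mul, sub_self, abs_zero]; positivity
    · rw [abs_sub_comm, norm_sub_rev]; exact key y hy x hx hy0
  · exact key x hx y hy hx0

theorem gramInv_smooth (c : Fin K) (i k : Fin 4) :
    ContDiffOn ℝ ∞ (fun p => ((A.dmat c p)ᵀ * A.dmat c p)⁻¹ i k) box := by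
  have hD : ∀ a i, ContDiffOn ℝ ∞ (fun p => A.dmat c p a i) box := fun a i =>
    (A.dmat_smooth c a i).contDiffOn
  have hG : ∀ i k, ContDiffOn ℝ ∞ (fun p => ((A.dmat c p)ᵀ * A.dmat c p) i k) box := fun i k => by
    simp only [Matrix.mul_apply, Matrix.transpose_apply]
    exact ContDiffOn.sum fun a _ => (hD a i).mul (hD a k)
  have hdet : ContDiffOn ℝ ∞ (fun p => ((A.dmat c p)ᵀ * A.dmat c p).det) box := by
    simp only [Matrix.det_apply']
    exact ContDiffOn.sum fun σ _ => contDiffOn_const.mul (contDiffOn_prod fun i _ => hG _ _)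
  simp only [Matrix.inv_def, Ring.inverse_eq_inv', Matrix.smul_apply, smul_eq_mul,
    Matrix.adjugate_apply]
  refine (hdet.inv fun p hp => A.gram_det_ne c hp).mul ?_
  simp only [Matrix.det_apply']
  refine ContDiffOn.sum fun σ _ => contDiffOn_const.mul (contDiffOn_prod fun j _ => ?_)
  simp only [Matrix.updateRow_apply]
  split_ifs with h
  · exact contDiffOn_const
  · exact hG _ _

theorem projCoef_smooth (c : Fin K) (a b : Fin N) :
    ContDiffOn ℝ ∞ (fun p => (A.dmat c p * ((A.dmat c p)ᵀ * A.dmat c p)⁻¹ * (A.dmat c p)ᵀ) a b) box := by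
  have hD : ∀ a i, ContDiffOn ℝ ∞ (fun p => A.dmat c p a i) box := fun a i =>
    (A.dmat_smooth c a i).contDiffOn
  have hI := A.gramInv_smooth c
  simp only [Matrix.mul_apply, Matrix.transpose_apply]
  exact ContDiffOn.sum fun i _ =>
    (ContDiffOn.sum fun k _ => (hD a k).mul (hI k i)).mul (hD b i)

theorem proj_continuousOn (a b : Fin N) : ContinuousOn (fun x => A.proj x a b) A.X := by
  simp only [Atlas.proj, Matrix.sum_apply, Matrix.smul_apply, smul_eq_mul]
  exact continuousOn_finsetSum _ fun c _ =>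
    A.continuousOn_term c (A.projCoef_smooth c a b).continuousOn

theorem proj_lipschitz : ∃ C, 0 ≤ C ∧ ∀ x ∈ A.X, ∀ y ∈ A.X, ∀ a b,
    |A.proj x a b - A.proj y a b| ≤ C * ‖x - y‖ := by
  choose C hC0 hC using fun z : Fin K × Fin N × Fin N =>
    A.lipschitz_term z.1 (A.projCoef_smooth z.1 z.2.1 z.2.2)
  refine ⟨∑ z, C z, Finset.sum_nonneg fun z _ => hC0 z, fun x hx y hy a b => ?_⟩
  simp only [Atlas.proj, Matrix.sum_apply, Matrix.smul_apply, smul_eq_mul, ← Finset.sum_sub_distrib]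
  refine (Finset.abs_sum_le_sum_abs _ _).trans ((Finset.sum_le_sum fun c _ =>
    hC (c, a, b) x hx y hy).trans ?_)
  rw [← Finset.sum_mul]
  refine mul_le_mul_of_nonneg_right ?_ (norm_nonneg _)
  rw [Fintype.sum_prod_type]
  exact Finset.sum_le_sum fun c _ =>
    Finset.single_le_sum (f := fun z => C (c, z)) (fun z _ => hC0 _) (Finset.mem_univ (a, b))

variable {A}
variable {J : Amb N → MN N} (hJ : IsACS A J)
include hJ

theorem jc_continuousOn (c : Fin K) (i k : Fin 4) : ContinuousOn (fun p => A.jc J c p i k) box :=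
  (hJ.smooth c i k).continuousOn

theorem gMat_continuousOn (a b : Fin N) : ContinuousOn (fun x => A.gMat J x a b) A.X := by
  simp only [Atlas.gMat, Matrix.sum_apply, Matrix.smul_apply, smul_eq_mul]
  refine continuousOn_finsetSum _ fun c _ => ?_
  refine A.continuousOn_term c (F := fun p => ((A.L c)ᵀ * gH (A.jc J c p) * A.L c) a b) ?_
  have := fun i k => jc_continuousOn hJ c i k
  simp only [Matrix.mul_apply, Matrix.transpose_apply, gH, Matrix.smul_apply, Matrix.add_apply,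
    smul_eq_mul]
  fun_prop

theorem J_continuousOn (a b : Fin N) : ContinuousOn (fun x => J x a b) A.X := by
  have e : ∀ x ∈ A.X, J x a b = ∑ c, A.chi c x *
      (A.dmat c (A.phi c x) * A.jc J c (A.phi c x) *
        ((A.dmat c (A.phi c x))ᵀ * A.dmat c (A.phi c x))⁻¹ * (A.dmat c (A.phi c x))ᵀ) a b := fun x hx => by
    conv_lhs => rw [← hJ.normal x hx, Atlas.proj, Matrix.mul_sum]
    simp only [Matrix.sum_apply, Matrix.mul_smul, Matrix.smul_apply, smul_eq_mul]
    refine Finset.sum_congr rfl fun c _ => ?_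
    rcases eq_or_ne (A.chi c x) 0 with h | h
    · simp [h]
    · have hc := A.supp_box hx h
      have ht := hJ.tangent c _ (A.phi_mem c hc)
      rw [A.psi_phi c hc] at ht
      rw [← Matrix.mul_assoc, ← Matrix.mul_assoc, ht]
  refine ContinuousOn.congr ?_ e
  refine continuousOn_finsetSum _ fun c _ => A.continuousOn_term c
    (F := fun p => (A.dmat c p * A.jc J c p * ((A.dmat c p)ᵀ * A.dmat c p)⁻¹ * (A.dmat c p)ᵀ) a b) ?_
  have hD : ∀ a i, ContinuousOn (fun p => A.dmat c p a i) box := fun a i =>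
    ((A.dmat_smooth c a i).continuous).continuousOn
  have hI : ∀ i k, ContinuousOn (fun p => ((A.dmat c p)ᵀ * A.dmat c p)⁻¹ i k) box := fun i k =>
    (A.gramInv_smooth c i k).continuousOn
  generalize hG : (fun p => ((A.dmat c p)ᵀ * A.dmat c p)⁻¹) = G
  have hI' : ∀ i k, ContinuousOn (fun p => G p i k) box := by subst hG; exact hI
  show ContinuousOn (fun p => (A.dmat c p * A.jc J c p * (fun p => ((A.dmat c p)ᵀ * A.dmat c p)⁻¹) p * (A.dmat c p)ᵀ) a b) box
  rw [hG]
  have := fun i k => jc_continuousOn hJ c i k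
  simp only [Matrix.mul_apply, Matrix.transpose_apply]
  fun_prop

/-- The distance to a line is continuous. -/
theorem offX_continuous :
    Continuous fun z : A.unitTan × Amb N => A.offX J z.1.1.1 z.1.1.2 z.2 := by
  have hx : Continuous fun z : A.unitTan × Amb N => z.1.1.1 :=
    continuous_fst.comp (continuous_subtype_val.comp continuous_fst)
  have hmem : ∀ z : A.unitTan × Amb N, z.1.1.1 ∈ A.X := fun z => z.1.2.1
  have hP : ∀ a b, Continuous fun z : A.unitTan × Amb N => A.proj z.1.1.1 a b :=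
    fun a b => (A.proj_continuousOn a b).comp_continuous hx hmem
  have hg : ∀ a b, Continuous fun z : A.unitTan × Amb N => A.gMat J z.1.1.1 a b :=
    fun a b => (gMat_continuousOn hJ a b).comp_continuous hx hmem
  have hJc : ∀ a b, Continuous fun z : A.unitTan × Amb N => J z.1.1.1 a b :=
    fun a b => (J_continuousOn hJ a b).comp_continuous hx hmem
  have hv : ∀ a, Continuous fun z : A.unitTan × Amb N => z.1.1.2 a := fun a =>
    (continuous_apply a).comp (continuous_snd.comp (continuous_subtype_val.comp continuous_fst))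
  have hw : ∀ a, Continuous fun z : A.unitTan × Amb N => z.2 a := fun a =>
    (continuous_apply a).comp continuous_snd
  have hPv : ∀ a, Continuous fun z : A.unitTan × Amb N => ∑ b, A.proj z.1.1.1 a b * z.2 b :=
    fun a => continuous_finsetSum _ fun b _ => (hP a b).mul (hw b)
  have hJv : ∀ a, Continuous fun z : A.unitTan × Amb N => ∑ b, J z.1.1.1 a b * z.1.1.2 b :=
    fun a => continuous_finsetSum _ fun b _ => (hJc a b).mul (hv b)
  have hform : ∀ {f h : Fin N → A.unitTan × Amb N → ℝ}, (∀ a, Continuous (f a)) →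
      (∀ a, Continuous (h a)) →
      Continuous fun z => ∑ a, f a z * ∑ b, A.gMat J z.1.1.1 a b * h b z :=
    fun hf hh => continuous_finsetSum _ fun a _ =>
      (hf a).mul (continuous_finsetSum _ fun b _ => (hg a b).mul (hh b))
  simp only [Atlas.offX, mulVec, dotProduct]
  exact (((hform hPv hPv).mul (hform hv hv)).sub ((hform hPv hv).pow 2)).sub ((hform hPv hJv).pow 2)

theorem g_unit_bounds : ∃ c C : ℝ, 0 < c ∧ ∀ z ∈ A.unitTan,
    c ≤ z.2 ⬝ᵥ (A.gMat J z.1 *ᵥ z.2) ∧ z.2 ⬝ᵥ (A.gMat J z.1 *ᵥ z.2) ≤ C := by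
  have hc : ContinuousOn (fun z : Amb N × Amb N => z.2 ⬝ᵥ (A.gMat J z.1 *ᵥ z.2)) A.unitTan := by
    have := fun a b => (gMat_continuousOn hJ a b).comp (continuous_fst.continuousOn (s := A.unitTan))
      fun z hz => hz.1
    simp only [Function.comp_def] at this
    simp only [mulVec, dotProduct]
    fun_prop
  rcases A.unitTan.eq_empty_or_nonempty with he | he
  · exact ⟨1, 0, one_pos, fun z hz => by simp [he] at hz⟩
  obtain ⟨z₀, hz₀, hmin⟩ := A.isCompact_unitTan.exists_isMinOn he hc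
  obtain ⟨z₁, hz₁, hmax⟩ := A.isCompact_unitTan.exists_isMaxOn he hc
  refine ⟨_, _, g_pos (A := A) (J := J) hz₀.2.1 (fun h => ?_), fun z hz => ⟨hmin hz, hmax hz⟩⟩
  have := hz₀.2.2
  rw [h, dotProduct_zero] at this
  exact zero_ne_one this

end Atlas

end Vale.Agent.P204.General
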