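import Mathlib
import Vale.Agent.P204.General.Tangent
import Vale.Agent.P204.General.Basic.Orient

/-!
# P204 on a closed four-manifold: the size of form values and their splitting
-/

open MeasureTheory Matrix Filter Set
open scoped ContDiff Topology

namespace Vale.Agent.P204.General

open Vale.Agent.P204.Torus

variable {N K : ℕ} (A : Atlas N K)

theorem antiX_skew {J : Amb N → MN N} {x : Amb N} {M : MN N} (hM : Mᵀ = -M) :
    (antiX J x M)ᵀ = -antiX J x M := by
  rw [antiX, transpose_smul, transpose_sub, hM, skew_conj' hM, ← smul_neg]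
  congr 1
  abel

theorem inv11X_skew {J : Amb N → MN N} {x : Amb N} {M : MN N} (hM : Mᵀ = -M) :
    (inv11X J x M)ᵀ = -inv11X J x M := by
  rw [inv11X, transpose_smul, transpose_add, hM, skew_conj' hM, ← smul_neg, neg_add]

theorem inv_add_anti (J : Amb N → MN N) (x : Amb N) (M : MN N) :
    inv11X J x M + antiX J x M = M := by
  rw [inv11X, antiX]; module

theorem abs_entry_le_sqrt_sq2 (P : M4) (i k : Fin 4) : |P i k| ≤ Real.sqrt (sq2 P) :=
  Real.abs_le_sqrt ((Finset.single_le_sum (f := fun k => P i k ^ 2) (fun _ _ => sq_nonneg _)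
    (Finset.mem_univ k)).trans (Finset.single_le_sum (f := fun i => ∑ k, P i k ^ 2)
      (fun _ _ => Finset.sum_nonneg fun _ _ => sq_nonneg _) (Finset.mem_univ i)))

theorem sq2_antiP_le {j : M4} {B : ℝ} (hB : ∀ i k, |j i k| ≤ B) (P : M4) :
    sq2 (antiP j P) ≤ 16 * (1 + 16 * B ^ 2) ^ 2 * sq2 P := by
  set S := Real.sqrt (sq2 P)
  have hS : S ^ 2 = sq2 P :=
    Real.sq_sqrt (Finset.sum_nonneg fun i _ => Finset.sum_nonneg fun k _ => sq_nonneg _)
  have hB0 : 0 ≤ B := (abs_nonneg _).trans (hB 0 0)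
  have hS0 : 0 ≤ S := Real.sqrt_nonneg _
  have he : ∀ i k, |antiP j P i k| ≤ (1 + 16 * B ^ 2) * S := fun i k => by
    have h1 : |(jᵀ * P * j) i k| ≤ 16 * B ^ 2 * S := by
      simp only [Matrix.mul_apply, Matrix.transpose_apply, Finset.sum_mul]
      refine (Finset.abs_sum_le_sum_abs _ _).trans ((Finset.sum_le_sum fun a _ =>
        (Finset.abs_sum_le_sum_abs _ _).trans (Finset.sum_le_sum fun b _ => ?_)).trans_eq
        (b := ∑ _a : Fin 4, ∑ _b : Fin 4, B * S * B) ?_)
      · rw [abs_mul, abs_mul]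
        exact mul_le_mul (mul_le_mul (hB _ _) (abs_entry_le_sqrt_sq2 P _ _) (abs_nonneg _) hB0) (hB _ _)
          (abs_nonneg _) (by positivity)
      · simp; ring
    simp only [antiP, Matrix.smul_apply, Matrix.sub_apply, smul_eq_mul, abs_mul]
    have h2 := abs_sub (P i k) ((jᵀ * P * j) i k)
    have h3 : |P i k| ≤ S := abs_entry_le_sqrt_sq2 P i k
    rw [abs_of_nonneg (by norm_num : (0 : ℝ) ≤ 2⁻¹)]
    nlinarith [abs_nonneg (P i k - (jᵀ * P * j) i k)]
  refine (Finset.sum_le_sum fun i _ => Finset.sum_le_sum fun k _ =>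
    ((sq_abs _).symm.trans_le (pow_le_pow_left₀ (abs_nonneg _) (he i k) 2))).trans_eq ?_
  rw [← hS]
  simp
  ring

namespace Atlas

/-- The coefficients of a form value in all charts, weighted by the partition. -/
noncomputable def enc (x : Amb N) (M : MN N) : EuclideanSpace ℝ (Fin K × Fin 4 × Fin 4) :=
  WithLp.toLp 2 fun z => Real.sqrt (A.chi z.1 x) * A.pullAt z.1 M (A.phi z.1 x) z.2.1 z.2.2

/-- The size of a form value. -/
noncomputable def sN (x : Amb N) (M : MN N) : ℝ := ‖A.enc x M‖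

theorem enc_apply (x : Amb N) (M : MN N) (z : Fin K × Fin 4 × Fin 4) :
    A.enc x M z = Real.sqrt (A.chi z.1 x) * A.pullAt z.1 M (A.phi z.1 x) z.2.1 z.2.2 := rfl

theorem sN_nonneg (x : Amb N) (M : MN N) : 0 ≤ A.sN x M := norm_nonneg _

theorem sq_sN (x : Amb N) (M : MN N) : A.sN x M ^ 2 = A.sqX x M := by
  rw [Atlas.sN, EuclideanSpace.norm_sq_eq]
  simp only [enc_apply, Real.norm_eq_abs, sq_abs, mul_pow, Fintype.sum_prod_type, Atlas.sqX, sq2,
    Real.sq_sqrt (A.chi_nonneg _ x), Finset.mul_sum]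

theorem sqrt_sqX (x : Amb N) (M : MN N) : Real.sqrt (A.sqX x M) = A.sN x M := by
  rw [← A.sq_sN, Real.sqrt_sq (A.sN_nonneg _ _)]

theorem sqX_nonneg (x : Amb N) (M : MN N) : 0 ≤ A.sqX x M := A.sq_sN x M ▸ sq_nonneg _

theorem enc_add (x : Amb N) (M M' : MN N) : A.enc x (M + M') = A.enc x M + A.enc x M' := by
  ext z
  simp [enc_apply, Atlas.pullAt, Matrix.mul_add, Matrix.add_mul, mul_add]

theorem enc_smul (x : Amb N) (t : ℝ) (M : MN N) : A.enc x (t • M) = t • A.enc x M := by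
  ext z
  simp [enc_apply, Atlas.pullAt, Matrix.mul_smul, Matrix.smul_mul]
  ring

theorem sN_add_le (x : Amb N) (M M' : MN N) : A.sN x (M + M') ≤ A.sN x M + A.sN x M' := by
  rw [Atlas.sN, enc_add]; exact norm_add_le _ _

theorem sN_smul (x : Amb N) (t : ℝ) (M : MN N) : A.sN x (t • M) = |t| * A.sN x M := by
  rw [Atlas.sN, enc_smul, norm_smul, Real.norm_eq_abs]; rfl

theorem sN_sub_le (x : Amb N) (M M' : MN N) : A.sN x (M - M') ≤ A.sN x M + A.sN x M' := by
  have h := A.sN_add_le x M ((-1 : ℝ) • M')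
  rw [A.sN_smul, abs_neg, abs_one, one_mul, neg_one_smul, ← sub_eq_add_neg] at h
  exact h

theorem dmat_cont (c : Fin K) (a : Fin N) (i : Fin 4) :
    Continuous fun p => A.dmat c p a i := (A.dmat_smooth c a i).continuous

theorem pullAt_apply (c : Fin K) (M : MN N) (p : Pt) (i k : Fin 4) :
    A.pullAt c M p i k = ∑ b, (∑ a, A.dmat c p a i * M a b) * A.dmat c p b k := by
  simp only [Atlas.pullAt, Matrix.mul_apply, Matrix.transpose_apply]

theorem enc_cont {Z : Type*} [TopologicalSpace Z] {f : Z → Amb N} {g : Z → MN N} (hf : Continuous f)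
    (hg : ∀ a b, Continuous fun z => g z a b) (w : Fin K × Fin 4 × Fin 4) :
    Continuous fun z => A.enc (f z) (g z) w := by
  simp only [enc_apply, pullAt_apply]
  refine ((A.chi_cont w.1).comp hf).sqrt.mul (continuous_finsetSum _ fun b _ =>
    (continuous_finsetSum _ fun a _ => ?_).mul ?_)
  · exact ((A.dmat_cont w.1 a w.2.1).comp ((A.phi_cont w.1).comp hf)).mul (hg a b)
  · exact (A.dmat_cont w.1 b w.2.2).comp ((A.phi_cont w.1).comp hf)

theorem sN_cont {Z : Type*} [TopologicalSpace Z] {f : Z → Amb N} {g : Z → MN N} (hf : Continuous f)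
    (hg : ∀ a b, Continuous fun z => g z a b) : Continuous fun z => A.sN (f z) (g z) := by
  unfold Atlas.sN
  refine Continuous.norm ?_
  exact (PiLp.continuous_toLp 2 _).comp (continuous_pi fun w => A.enc_cont hf hg w)

theorem wedgePt_comm (x : Amb N) (M M' : MN N) : A.wedgePt x M M' = A.wedgePt x M' M := by
  simp only [Atlas.wedgePt, wedge_comm]

theorem wedgePt_add_left (x : Amb N) (M M' P : MN N) :
    A.wedgePt x (M + M') P = A.wedgePt x M P + A.wedgePt x M' P := by
  simp only [Atlas.wedgePt, Atlas.pullAt, Matrix.mul_add, Matrix.add_mul, wedge_add_left, add_div,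
    mul_add, Finset.sum_add_distrib]

theorem wedgePt_smul_left (x : Amb N) (t : ℝ) (M P : MN N) :
    A.wedgePt x (t • M) P = t * A.wedgePt x M P := by
  simp only [Atlas.wedgePt, Atlas.pullAt, Matrix.mul_smul, Matrix.smul_mul, wedge_smul_left,
    Finset.mul_sum]
  exact Finset.sum_congr rfl fun d _ => by ring

theorem wedgePt_add_right (x : Amb N) (P M M' : MN N) :
    A.wedgePt x P (M + M') = A.wedgePt x P M + A.wedgePt x P M' := by
  rw [A.wedgePt_comm, A.wedgePt_add_left, A.wedgePt_comm x M, A.wedgePt_comm x M']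

theorem wedgePt_sum_left {ι : Type*} (s : Finset ι) (x : Amb N) (f : ι → MN N) (P : MN N) :
    A.wedgePt x (∑ i ∈ s, f i) P = ∑ i ∈ s, A.wedgePt x (f i) P := by
  classical
  induction s using Finset.induction_on with
  | empty => simp [Atlas.wedgePt, Atlas.pullAt, wedge]
  | insert a t ha ih => rw [Finset.sum_insert ha, Finset.sum_insert ha, wedgePt_add_left, ih]

/-- Equal pullbacks give equal wedge products. -/
theorem wedgePt_congr_left {x : Amb N} {M M' : MN N}
    (h : ∀ d, A.chi d x ≠ 0 → A.pullAt d M (A.phi d x) = A.pullAt d M' (A.phi d x)) (P : MN N) :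
    A.wedgePt x M P = A.wedgePt x M' P := by
  refine Finset.sum_congr rfl fun d _ => ?_
  rcases eq_or_ne (A.chi d x) 0 with hd | hd
  · simp [hd]
  · rw [h d hd]

/-- Equal pullbacks give equal sizes. -/
theorem sN_congr {x : Amb N} {M M' : MN N}
    (h : ∀ d, A.chi d x ≠ 0 → A.pullAt d M (A.phi d x) = A.pullAt d M' (A.phi d x)) :
    A.sN x M = A.sN x M' := by
  rw [← A.sqrt_sqX, ← A.sqrt_sqX]
  congr 1
  refine Finset.sum_congr rfl fun d _ => ?_
  rcases eq_or_ne (A.chi d x) 0 with hd | hd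
  · simp [hd]
  · rw [h d hd]

/-- A form value on two tangent vectors is controlled by its size. -/
theorem exists_pairing_bound : ∃ C, 0 ≤ C ∧ ∀ x M u w, A.IsTan x u → A.IsTan x w →
    |u ⬝ᵥ (M *ᵥ w)| ≤ C * ‖u‖ * ‖w‖ * A.sN x M := by
  set L₀ := ∑ c, ‖(Matrix.mulVecLin (A.L c)).toContinuousLinearMap‖
  refine ⟨16 * L₀ ^ 2 * Real.sqrt K, by positivity, fun x M u w hu hw => ?_⟩
  have hx := A.mem_of_isTan hu
  obtain ⟨c, hc⟩ : ∃ c, 1 ≤ (K : ℝ) * A.chi c x := by
    by_contra hcon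
    push Not at hcon
    have hne : (Finset.univ : Finset (Fin K)).Nonempty := by
      obtain ⟨c, -⟩ := A.exists_chart hx; exact ⟨c, Finset.mem_univ _⟩
    have h := Finset.sum_lt_sum_of_nonempty hne fun c _ => hcon c
    rw [← Finset.mul_sum, A.chi_sum x hx] at h
    simp at h
  have hne : A.chi c x ≠ 0 := fun h => by rw [h, mul_zero] at hc; linarith
  have hbx := A.supp_box hx hne
  set P := A.pullAt c M (A.phi c x)
  have hval : u ⬝ᵥ (M *ᵥ w) = (A.L c *ᵥ u) ⬝ᵥ (P *ᵥ (A.L c *ᵥ w)) := by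
    conv_lhs => rw [← A.tan_in_chart hu c hbx, ← A.tan_in_chart hw c hbx]
    simp only [P, Atlas.pullAt, ← mulVec_mulVec]
    rw [dotProduct_mulVec (A.L c *ᵥ u) (A.dmat c (A.phi c x))ᵀ, vecMul_transpose]
  have hP : ∀ i k, |P i k| ≤ Real.sqrt K * A.sN x M := fun i k => by
    have h1 : |A.enc x M (c, i, k)| ≤ A.sN x M := by
      simpa [Atlas.sN] using PiLp.norm_apply_le (A.enc x M) (c, i, k)
    rw [enc_apply, abs_mul, abs_of_nonneg (Real.sqrt_nonneg _)] at h1
    have h2 : 1 ≤ Real.sqrt K * Real.sqrt (A.chi c x) := by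
      rw [← Real.sqrt_mul (Nat.cast_nonneg K)]; exact Real.one_le_sqrt.2 hc
    calc |P i k| = 1 * |P i k| := (one_mul _).symm
      _ ≤ Real.sqrt K * Real.sqrt (A.chi c x) * |P i k| := mul_le_mul_of_nonneg_right h2 (abs_nonneg _)
      _ ≤ _ := by rw [mul_assoc]; exact mul_le_mul_of_nonneg_left h1 (Real.sqrt_nonneg _)
  have hL : ∀ (v : Amb N) (i : Fin 4), |(A.L c *ᵥ v) i| ≤ L₀ * ‖v‖ := fun v i => by
    refine ((Real.norm_eq_abs _).symm.trans_le (norm_le_pi_norm (A.L c *ᵥ v) i)).trans ?_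
    refine (((Matrix.mulVecLin (A.L c)).toContinuousLinearMap).le_opNorm v).trans ?_
    exact mul_le_mul_of_nonneg_right (Finset.single_le_sum
      (f := fun c => ‖(Matrix.mulVecLin (A.L c)).toContinuousLinearMap‖) (fun _ _ => norm_nonneg _)
      (Finset.mem_univ c)) (norm_nonneg _)
  rw [hval]
  have hLu := hL u
  have hLw := hL w
  revert hLu hLw
  generalize A.L c *ᵥ u = a
  generalize A.L c *ᵥ w = b
  intro hLu hLw
  simp only [dotProduct, mulVec, Finset.mul_sum]
  refine (Finset.abs_sum_le_sum_abs _ _).trans ((Finset.sum_le_sum fun i _ =>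
    (Finset.abs_sum_le_sum_abs _ _).trans (Finset.sum_le_sum fun k _ => ?_)).trans_eq
    (b := ∑ _i : Fin 4, ∑ _k : Fin 4,
      (L₀ * ‖u‖) * (Real.sqrt K * A.sN x M * (L₀ * ‖w‖))) ?_)
  · rw [abs_mul, abs_mul]
    have := A.sN_nonneg x M
    exact mul_le_mul (hLu i) (mul_le_mul (hP i k) (hLw k) (abs_nonneg _) (by positivity))
      (by positivity) (by positivity)
  · simp; ring

variable {A}
variable {J : Amb N → MN N} (hJ : IsACS A J)
include hJ

theorem pull_antiX {x : Amb N} (hx : x ∈ A.X) {d : Fin K} (hd : A.chi d x ≠ 0) (M : MN N) :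
    A.pullAt d (antiX J x M) (A.phi d x)
      = antiP (A.jc J d (A.phi d x)) (A.pullAt d M (A.phi d x)) := by
  have hc := A.supp_box hx hd
  have h := pullAt_antiX A hJ d (A.phi_mem d hc) M
  rwa [A.psi_phi d hc] at h

theorem exists_anti_bound : ∃ C, 1 ≤ C ∧ ∀ x ∈ A.X, ∀ M,
    A.sN x (antiX J x M) ≤ C * A.sN x M ∧ A.sN x (inv11X J x M) ≤ C * A.sN x M := by
  obtain ⟨B, hB⟩ : ∃ B, ∀ (c : Fin K), ∀ p ∈ Metric.closedBall (0 : Pt) (1 / 2), ∀ i k,
      |A.jc J c p i k| ≤ B := by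
    choose b hb using fun z : Fin K × Fin 4 × Fin 4 =>
      (isCompact_closedBall (0 : Pt) (1 / 2)).exists_bound_of_continuousOn
        ((jc_continuousOn hJ z.1 z.2.1 z.2.2).mono closedBall_subset_box)
    refine ⟨∑ z, |b z|, fun c p hp i k => ((Real.norm_eq_abs _).symm.trans_le (hb (c, i, k) p hp)).trans
      ((le_abs_self _).trans (Finset.single_le_sum (f := fun z => |b z|) (fun _ _ => abs_nonneg _)
        (Finset.mem_univ _)))⟩
  set C := Real.sqrt (16 * (1 + 16 * B ^ 2) ^ 2)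
  refine ⟨1 + C, le_add_of_nonneg_right (Real.sqrt_nonneg _), fun x hx M => ?_⟩
  have h1 : A.sN x (antiX J x M) ≤ C * A.sN x M := by
    rw [← A.sqrt_sqX, ← A.sqrt_sqX, ← Real.sqrt_mul (by positivity)]
    refine Real.sqrt_le_sqrt ?_
    simp only [Atlas.sqX, Finset.mul_sum]
    refine Finset.sum_le_sum fun d _ => ?_
    rcases eq_or_ne (A.chi d x) 0 with hd | hd
    · simp [hd]
    · rw [pull_antiX hJ hx hd, mul_left_comm]
      obtain ⟨p, hp, rfl⟩ := A.chi_supp d x hx hd
      refine mul_le_mul_of_nonneg_left (sq2_antiP_le (fun i k => ?_) _) (A.chi_nonneg _ _)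
      rw [A.phi_psi d (closedBall_subset_box hp)]
      exact hB d p hp i k
  have h0 := A.sN_nonneg x M
  refine ⟨h1.trans (by linarith), ?_⟩
  have h2 : inv11X J x M = M - antiX J x M := eq_sub_of_add_eq (inv_add_anti J x M)
  rw [h2]
  exact (A.sN_sub_le x _ _).trans (by linarith)

omit hJ in
/-- Replacing a form value by its tangential part. -/
theorem pull_projForm {x : Amb N} (hx : x ∈ A.X) {d : Fin K} (hd : A.chi d x ≠ 0) (M : MN N) :
    A.pullAt d ((A.proj x)ᵀ * M * A.proj x) (A.phi d x) = A.pullAt d M (A.phi d x) := by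
  have hc := A.supp_box hx hd
  have h := A.proj_dmat d (A.phi_mem d hc)
  rw [A.psi_phi d hc] at h
  simp only [Atlas.pullAt]
  calc (A.dmat d (A.phi d x))ᵀ * ((A.proj x)ᵀ * M * A.proj x) * A.dmat d (A.phi d x)
      = (A.proj x * A.dmat d (A.phi d x))ᵀ * M * (A.proj x * A.dmat d (A.phi d x)) := by
        simp only [transpose_mul, Matrix.mul_assoc]
    _ = _ := by rw [h]

/-- On tangential values the anti-invariant part is a projection. -/
theorem antiX_idem {x : Amb N} (hx : x ∈ A.X) (M : MN N) :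
    antiX J x (antiX J x ((A.proj x)ᵀ * M * A.proj x))
      = antiX J x ((A.proj x)ᵀ * M * A.proj x) := by
  set P := A.proj x
  have h1 : P * J x = J x := proj_mul_J hJ hx
  have h2 : J x * J x = -P := J_mul_J hJ hx
  have h4 : P * P = P := A.proj_proj hx
  set Q := Pᵀ * M * P
  have e1 : (J x)ᵀ * Q * J x = (J x)ᵀ * M * J x := by
    calc (J x)ᵀ * Q * J x = (P * J x)ᵀ * M * (P * J x) := by
          simp only [Q, transpose_mul, Matrix.mul_assoc]
      _ = _ := by rw [h1]
  have e2 : (J x)ᵀ * ((J x)ᵀ * M * J x) * J x = Q := by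
    calc (J x)ᵀ * ((J x)ᵀ * M * J x) * J x = (J x * J x)ᵀ * M * (J x * J x) := by
          simp only [transpose_mul, Matrix.mul_assoc]
      _ = _ := by rw [h2, transpose_neg]; simp [Q]
  simp only [antiX, Matrix.mul_smul, Matrix.smul_mul, Matrix.mul_sub, Matrix.sub_mul, e1, e2]
  module

omit hJ in
theorem wedgePt_split (h0 : ∀ x ∈ A.X, ∀ M M', Mᵀ = -M → M'ᵀ = -M' →
      A.wedgePt x (inv11X J x M) (antiX J x M') = 0)
    {x : Amb N} (hx : x ∈ A.X) {M M' : MN N} (hM : Mᵀ = -M) (hM' : M'ᵀ = -M') :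
    A.wedgePt x M M' = A.wedgePt x (antiX J x M) (antiX J x M')
      + A.wedgePt x (inv11X J x M) (inv11X J x M') := by
  conv_lhs => rw [← inv_add_anti J x M, ← inv_add_anti J x M']
  rw [A.wedgePt_add_left, A.wedgePt_add_right, A.wedgePt_add_right, h0 x hx M M' hM hM',
    A.wedgePt_comm x (antiX J x M) (inv11X J x M'), h0 x hx M' M hM' hM]
  ring

end Atlas

end Vale.Agent.P204.General
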