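import Mathlib
import Vale.Agent.P204.Est.Riesz
import Vale.Agent.P204.Est.Tools
import Vale.Agent.P204.General.Forms
import Vale.Agent.P204.General.Stmts

/-!
# P204 on a closed four-manifold: an `L²` bounded extension is given by a form density
-/

open MeasureTheory Matrix Filter Set
open scoped ContDiff Topology

namespace Vale.Agent.P204.General

open Vale.Agent.P204.Torus

variable {N K : ℕ} {A : Atlas N K}

theorem isTestX_add {a b : Amb N → MN N} (ha : IsTestX A a) (hb : IsTestX A b) :
    IsTestX A (a + b) := by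
  refine ⟨fun x => by simp [ha.skew x, hb.skew x, add_comm], fun c i k => ?_⟩
  have e : (fun p => A.pull c (a + b) p i k) = fun p => A.pull c a p i k + A.pull c b p i k := by
    funext p; simp [Atlas.pull, Atlas.pullAt, Matrix.mul_add, Matrix.add_mul]
  rw [e]; exact (ha.smooth c i k).add (hb.smooth c i k)

theorem isTestX_smul {a : Amb N → MN N} (t : ℝ) (ha : IsTestX A a) : IsTestX A (t • a) := by
  refine ⟨fun x => by simp [ha.skew x], fun c i k => ?_⟩
  have e : (fun p => A.pull c (t • a) p i k) = fun p => t * A.pull c a p i k := by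
    funext p; simp [Atlas.pull, Atlas.pullAt, Matrix.mul_smul, Matrix.smul_mul]
  rw [e]; exact contDiffOn_const.mul (ha.smooth c i k)

theorem isTestX_sub {a b : Amb N → MN N} (ha : IsTestX A a) (hb : IsTestX A b) :
    IsTestX A (a - b) := by
  simpa [sub_eq_add_neg, neg_one_smul] using isTestX_add ha (isTestX_smul (-1) hb)

theorem isTestX_zero : IsTestX A (0 : Amb N → MN N) :=
  ⟨fun x => by simp, fun c i k => by simp [Atlas.pull, Atlas.pullAt, contDiffOn_const]⟩

theorem conj_twice' {j : M4} (hj : j * j = -1) (P : M4) : jᵀ * (jᵀ * P * j) * j = P := by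
  calc jᵀ * (jᵀ * P * j) * j = (j * j)ᵀ * P * (j * j) := by
        simp only [transpose_mul, Matrix.mul_assoc]
    _ = P := by rw [hj]; simp

theorem isTestX_anti {J : Amb N → MN N} (hJ : IsACS A J) {a : Amb N → MN N} (ha : IsTestX A a) :
    IsTestX A fun x => antiX J x (a x) := by
  refine ⟨fun x => antiX_skew (ha.skew x), fun c i k => ?_⟩
  refine ContDiffOn.congr (f := fun p => antiP (A.jc J c p) (A.pull c a p) i k) ?_ fun p hp => by
    show A.pullAt c (antiX J _ (a _)) p i k = antiP _ (A.pullAt c (a _) p) i k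
    rw [pullAt_antiX A hJ c hp]
  simp only [antiP, Matrix.smul_apply, Matrix.sub_apply, smul_eq_mul, Matrix.mul_apply,
    Matrix.transpose_apply]
  exact contDiffOn_const.mul ((ha.smooth c i k).sub (ContDiffOn.sum fun l _ =>
    (ContDiffOn.sum fun l' _ => (hJ.smooth c l' i).mul (ha.smooth c l' l)).mul (hJ.smooth c l k)))

theorem invX_sub_anti {J : Amb N → MN N} (hJ : IsACS A J) (a : Amb N → MN N) :
    InvX A J (a - fun x => antiX J x (a x)) := by
  intro c p hp
  have e : A.pull c (a - fun x => antiX J x (a x)) p = inv11 (A.jc J c p) (A.pull c a p) := by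
    rw [Atlas.pull, Pi.sub_apply, ← eq_sub_of_add_eq (inv_add_anti J (A.psi c p) (a (A.psi c p)))]
    exact pullAt_inv11X A hJ c hp _
  rw [e]
  simp only [inv11, Matrix.mul_smul, Matrix.smul_mul, Matrix.mul_add, Matrix.add_mul,
    conj_twice' (hJ.sq c p hp)]
  rw [add_comm]

theorem vol_restrict (hae : ∀ᵐ x ∂A.vol, x ∈ A.X) : A.vol.restrict A.X = A.vol :=
  Measure.restrict_eq_self_of_ae_mem hae

theorem aesm_of_continuousOn (hae : ∀ᵐ x ∂A.vol, x ∈ A.X) {f : Amb N → ℝ}
    (hf : ContinuousOn f A.X) : AEStronglyMeasurable f A.vol := by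
  rw [← vol_restrict hae]
  exact hf.aestronglyMeasurable A.compact.isClosed.measurableSet

/-- The wedge product with a test form is continuous on the manifold. -/
theorem continuousOn_wedgePt_test {J : Amb N → MN N} (hJ : IsACS A J) {a : Amb N → MN N}
    (ha : IsTestX A a) {M : Amb N → MN N} (hM : ∀ i k, Continuous fun x => M x i k) :
    ContinuousOn (fun x => A.wedgePt x (M x) (a x)) A.X := by
  have h : ContinuousOn (fun x => ∑ d, A.chi d x *
      (fun p => wedge (A.pullAt d (M (A.psi d p)) p) (A.pull d a p) / A.dens d p) (A.phi d x)) A.X := by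
    refine continuousOn_finsetSum _ fun d _ => A.continuousOn_term d
      (F := fun p => wedge (A.pullAt d (M (A.psi d p)) p) (A.pull d a p) / A.dens d p) ?_
    have h1 : ∀ i k, ContinuousOn (fun p => A.pullAt d (M (A.psi d p)) p i k) box := fun i k => by
      simp only [Atlas.pullAt_apply]
      exact (continuous_finsetSum _ fun b _ => (continuous_finsetSum _ fun q _ =>
        (A.dmat_cont d q i).mul ((hM q b).comp (A.psi_cont d))).mul (A.dmat_cont d b k)).continuousOn
    have h2 : ∀ i k, ContinuousOn (fun p => A.pull d a p i k) box := fun i k =>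
      (ha.smooth d i k).continuousOn
    have h3 : ContinuousOn (fun p => A.dens d p) box := by
      simp only [Atlas.dens, Matrix.det_apply', Matrix.mul_apply]
      refine (continuous_finsetSum _ fun c _ => ((A.chi_cont c).comp (A.psi_cont d)).mul
        (continuous_finsetSum _ fun σ _ => continuous_const.mul (continuous_finsetProd _ fun i _ =>
          continuous_finsetSum _ fun l _ => continuous_const.mul (A.dmat_cont d l i)))).continuousOn
    refine ContinuousOn.div ?_ h3 fun p hp => (dens_pos A hJ d hp).ne'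
    simp only [wedge]
    fun_prop
  refine h.congr fun x hx => Finset.sum_congr rfl fun d _ => ?_
  rcases eq_or_ne (A.chi d x) 0 with hd | hd
  · simp [hd]
  · simp only [Atlas.pull, A.psi_phi d (A.supp_box hx hd)]

/-- The size of a test form is continuous on the manifold. -/
theorem continuousOn_sN {a : Amb N → MN N} (ha : IsTestX A a) :
    ContinuousOn (fun x => A.sN x (a x)) A.X := by
  have h : ContinuousOn (fun x => ∑ d, A.chi d x * (fun p => sq2 (A.pull d a p)) (A.phi d x)) A.X := by
    refine continuousOn_finsetSum _ fun d _ => A.continuousOn_term d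
      (F := fun p => sq2 (A.pull d a p)) ?_
    simp only [sq2]
    exact continuousOn_finsetSum _ fun i _ => continuousOn_finsetSum _ fun k _ =>
      (ha.smooth d i k).continuousOn.pow 2
  refine h.sqrt.congr fun x hx => ?_
  rw [← A.sqrt_sqX]
  congr 1
  refine Finset.sum_congr rfl fun d _ => ?_
  rcases eq_or_ne (A.chi d x) 0 with hd | hd
  · simp [hd]
  · simp only [Atlas.pull, A.psi_phi d (A.supp_box hx hd)]

/-- The index set of the coefficients. -/
abbrev Idx (K : ℕ) := Fin K × Fin 4 × Fin 4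

theorem sum_skew_part (P : M4) :
    ∑ i, ∑ k, P i k • (Matrix.single i k (1 : ℝ) - Matrix.single k i 1) = P - Pᵀ := by
  ext a b
  fin_cases a <;> fin_cases b <;>
    simp [Fin.sum_univ_four] <;> ring

/-- The basic form value of an index. -/
noncomputable def Atlas.basisForm (A : Atlas N K) (z : Idx K) (x : Amb N) : MN N :=
  (Real.sqrt (A.chi z.1 x) / 2) •
    ((A.L z.1)ᵀ * (Matrix.single z.2.1 z.2.2 (1 : ℝ) - Matrix.single z.2.2 z.2.1 1) * A.L z.1)

theorem basisForm_skew (z : Idx K) (x : Amb N) : (A.basisForm z x)ᵀ = -A.basisForm z x := by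
  rw [Atlas.basisForm, transpose_smul, ← smul_neg]
  congr 1
  refine skew_conj' ?_ _
  rw [transpose_sub, Matrix.transpose_single, Matrix.transpose_single, neg_sub]

theorem basisForm_cont (z : Idx K) (i k : Fin N) : Continuous fun x => A.basisForm z x i k := by
  simp only [Atlas.basisForm, Matrix.smul_apply, smul_eq_mul]
  exact (((A.chi_cont z.1).sqrt).div_const 2).mul continuous_const

/-- The coefficients determine the pullbacks. -/
theorem pull_recon {x : Amb N} (hx : x ∈ A.X) {M : MN N} (hM : Mᵀ = -M) {d : Fin K}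
    (hd : A.chi d x ≠ 0) :
    A.pullAt d (∑ z, A.enc x M z • A.basisForm z x) (A.phi d x) = A.pullAt d M (A.phi d x) := by
  have hc0 := A.supp_box hx hd
  set D := A.dmat d (A.phi d x)
  have e1 : ∑ z, A.enc x M z • A.basisForm z x
      = ∑ c, A.chi c x • ((A.L c)ᵀ * A.pullAt c M (A.phi c x) * A.L c) := by
    rw [Fintype.sum_prod_type]
    refine Finset.sum_congr rfl fun c _ => ?_
    set P := A.pullAt c M (A.phi c x)
    have hP : (2 : ℝ)⁻¹ • (P - Pᵀ) = P := by
      rw [pullAt_skew A c _ hM]; module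
    have e2 : ∀ z : Fin 4 × Fin 4, A.enc x M (c, z) • A.basisForm (c, z) x
        = (A.chi c x * (2 : ℝ)⁻¹) • ((A.L c)ᵀ *
          (P z.1 z.2 • (Matrix.single z.1 z.2 (1 : ℝ) - Matrix.single z.2 z.1 1)) * A.L c) := fun z => by
      rw [Atlas.enc_apply, Atlas.basisForm, Matrix.mul_smul, Matrix.smul_mul, smul_smul, smul_smul]
      congr 1
      calc Real.sqrt (A.chi c x) * P z.1 z.2 * (Real.sqrt (A.chi c x) / 2)
          = Real.sqrt (A.chi c x) * Real.sqrt (A.chi c x) * 2⁻¹ * P z.1 z.2 := by ring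
        _ = _ := by rw [Real.mul_self_sqrt (A.chi_nonneg c x)]
    simp only [e2]
    rw [← Finset.smul_sum, ← Matrix.sum_mul, ← Matrix.mul_sum, Fintype.sum_prod_type]
    dsimp only
    rw [sum_skew_part]
    conv_rhs => rw [← hP]
    simp only [Matrix.mul_smul, Matrix.smul_mul, smul_smul]
  rw [e1]
  simp only [Atlas.pullAt, Matrix.mul_sum, Matrix.sum_mul, Matrix.mul_smul, Matrix.smul_mul]
  have e3 : ∀ c ∈ (Finset.univ : Finset (Fin K)), A.chi c x • (Dᵀ * ((A.L c)ᵀ *
      ((A.dmat c (A.phi c x))ᵀ * M * A.dmat c (A.phi c x)) * A.L c) * D)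
      = A.chi c x • (Dᵀ * M * D) := fun c _ => by
    rcases eq_or_ne (A.chi c x) 0 with h | h
    · simp [h]
    · congr 1
      have hcc := A.supp_box hx h
      have hf := A.dmat_trans c d (A.phi_mem d hc0) (by rw [A.psi_phi d hc0]; exact hcc)
      rw [Atlas.trans, A.psi_phi d hc0] at hf
      calc _ = (A.dmat c (A.phi c x) * (A.L c * D))ᵀ * M * (A.dmat c (A.phi c x) * (A.L c * D)) := by
            simp only [transpose_mul, Matrix.mul_assoc]
        _ = _ := by rw [← hf]
  rw [Finset.sum_congr rfl e3, ← Finset.sum_smul, A.chi_sum x hx, one_smul]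

theorem aesm_mul {a b c : ℕ} {F : Amb N → Matrix (Fin a) (Fin b) ℝ}
    {G : Amb N → Matrix (Fin b) (Fin c) ℝ}
    (hF : ∀ i j, AEStronglyMeasurable (fun x => F x i j) A.vol)
    (hG : ∀ i j, AEStronglyMeasurable (fun x => G x i j) A.vol) (i : Fin a) (j : Fin c) :
    AEStronglyMeasurable (fun x => (F x * G x) i j) A.vol := by
  simp only [Matrix.mul_apply]
  exact Finset.aestronglyMeasurable_fun_sum _ fun l _ => (hF i l).mul (hG l j)

theorem aesm_enc {V : Amb N → MN N} (hV : ∀ i k, AEStronglyMeasurable (fun x => V x i k) A.vol)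
    (z : Idx K) : AEStronglyMeasurable (fun x => A.enc x (V x) z) A.vol := by
  simp only [Atlas.enc_apply, Atlas.pullAt_apply]
  refine ((A.chi_cont z.1).sqrt.aestronglyMeasurable).mul (Finset.aestronglyMeasurable_fun_sum _
    fun b _ => (Finset.aestronglyMeasurable_fun_sum _ fun a _ => ?_).mul ?_)
  · exact ((A.dmat_cont z.1 a z.2.1).comp (A.phi_cont z.1)).aestronglyMeasurable.mul (hV a b)
  · exact ((A.dmat_cont z.1 b z.2.2).comp (A.phi_cont z.1)).aestronglyMeasurable

/-- The extension is the pairing with a square integrable anti-invariant density. -/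
theorem exists_density {J : Amb N → MN N} (hJ : IsACS A J) (hfin : IsFiniteMeasure A.vol)
    (hae : ∀ᵐ x ∂A.vol, x ∈ A.X)
    (h0 : ∀ x ∈ A.X, ∀ M M', Mᵀ = -M → M'ᵀ = -M' →
      A.wedgePt x (inv11X J x M) (antiX J x M') = 0)
    {R : (Amb N → MN N) → ℝ} (hadd : ∀ a b, IsTestX A a → IsTestX A b → R (a + b) = R a + R b)
    (hsmul : ∀ (t : ℝ) a, IsTestX A a → R (t • a) = t * R a)
    (hinv : ∀ a, IsTestX A a → InvX A J a → R a = 0)
    {B ε₀ : ℝ} (hε₀ : 0 < ε₀) {G : ℝ → (Amb N → MN N) → (Amb N → MN N)}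
    (hlim : ∀ a, IsTestX A a → Tendsto (fun ε => R (G ε a)) (𝓝[>] 0) (𝓝 (R a)))
    (hV : ∀ ε, 0 < ε → ε ≤ ε₀ → ∃ V, L2X A V ∧ (∀ x, (V x)ᵀ = -V x) ∧ A.n2 V ≤ B ∧
      ∀ a, IsTestX A a → R (G ε a) = A.wedgeInt V a) :
    ∃ ρ, L2X A ρ ∧ (∀ x, (ρ x)ᵀ = -ρ x) ∧ (∀ x ∈ A.X, antiX J x (ρ x) = ρ x) ∧
      ∀ a, IsTestX A a → R a = A.wedgeInt ρ a := by
  classical
  have hX : MeasurableSet A.X := A.compact.isClosed.measurableSet
  set μ := A.vol.prod (Measure.count : Measure (Idx K))
  have haeX : ∀ᵐ q ∂μ, q.1 ∈ A.X := Measure.quasiMeasurePreserving_fst.ae hae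
  have intμ : ∀ f : Amb N × Idx K → ℝ, Integrable f μ →
      ∫ q, f q ∂μ = ∫ x, ∑ z, f (x, z) ∂A.vol := fun f hf => by
    rw [integral_prod _ hf]
    refine integral_congr_ae (ae_of_all _ fun x => ?_)
    show ∫ y, f (x, y) ∂Measure.count = ∑ z, f (x, z)
    rw [integral_fintype Integrable.of_finite]
    simp
  -- the test functions
  set ba : (Amb N → MN N) → Amb N × Idx K → ℝ :=
    fun a q => A.X.indicator (fun x => A.wedgePt x (A.basisForm q.2 x) (a x)) q.1 with hba
  have hbameas : ∀ a, IsTestX A a → Measurable (ba a) := fun a ha => by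
    refine measurable_from_prod_countable_left fun z => ?_
    show Measurable (A.X.indicator fun x => A.wedgePt x (A.basisForm z x) (a x))
    exact (continuousOn_wedgePt_test hJ ha (basisForm_cont z)).measurable_piecewise
      continuousOn_const hX
  have hbaL : ∀ a, IsTestX A a → MemLp (ba a) 2 μ := fun a ha => by
    choose C hC using fun z : Idx K =>
      A.compact.exists_bound_of_continuousOn (continuousOn_wedgePt_test hJ ha (basisForm_cont z))
    refine MemLp.of_bound (hbameas a ha).aestronglyMeasurable (∑ z, |C z|) (ae_of_all _ fun q => ?_)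
    have hs : |C q.2| ≤ ∑ z, |C z| :=
      Finset.single_le_sum (f := fun z => |C z|) (fun z _ => abs_nonneg _) (Finset.mem_univ _)
    by_cases hq : q.1 ∈ A.X
    · simp only [hba, Set.indicator_of_mem hq]
      exact ((hC q.2 q.1 hq).trans (le_abs_self _)).trans hs
    · simp only [hba, Set.indicator_of_notMem hq, norm_zero]
      exact Finset.sum_nonneg fun z _ => abs_nonneg _
  have hba_add : ∀ a b, ba (a + b) = ba a + ba b := fun a b => by
    funext q
    by_cases hq : q.1 ∈ A.X <;>
      simp [hba, hq, Atlas.wedgePt_add_right]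
  have hba_smul : ∀ (t : ℝ) a, ba (t • a) = t • ba a := fun t a => by
    funext q
    by_cases hq : q.1 ∈ A.X
    · simp [hba, hq, A.wedgePt_comm q.1 _ (t • a q.1), Atlas.wedgePt_smul_left,
        A.wedgePt_comm q.1 (a q.1)]
    · simp [hba, hq]
  -- pairing of a square integrable form with a test form
  have hpair : ∀ V, L2X A V → (∀ x, (V x)ᵀ = -V x) → ∀ a, IsTestX A a →
      |A.wedgeInt V a| ≤ A.n2 V * Real.sqrt (∫ q, ba a q ^ 2 ∂μ) := by
    intro V hVL hVs a ha
    set f : Amb N × Idx K → ℝ := fun q => A.enc q.1 (V q.1) q.2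
    have hfm : AEStronglyMeasurable f μ := by
      refine ⟨fun q => (aesm_enc hVL.1 q.2).mk _ q.1, ?_, ?_⟩
      · exact (measurable_from_prod_countable_left fun z =>
          (aesm_enc hVL.1 z).stronglyMeasurable_mk.measurable).stronglyMeasurable
      · have h : ∀ᵐ x ∂A.vol, ∀ z, A.enc x (V x) z = (aesm_enc hVL.1 z).mk _ x :=
          ae_all_iff.2 fun z => (aesm_enc hVL.1 z).ae_eq_mk
        filter_upwards [Measure.quasiMeasurePreserving_fst.ae h] with q hq using hq q.2
    have hf2 : MemLp f 2 μ := by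
      refine (memLp_two_iff_integrable_sq hfm).2 ((hVL.2.comp_fst _).mono' (hfm.pow 2)
        (ae_of_all _ fun q => ?_))
      show ‖f q ^ 2‖ ≤ A.sqX q.1 (V q.1)
      rw [← A.sq_sN, norm_pow]
      exact pow_le_pow_left₀ (norm_nonneg _) (PiLp.norm_apply_le (A.enc q.1 (V q.1)) q.2) 2
    have e : A.wedgeInt V a = ∫ q, f q * ba a q ∂μ := by
      rw [intμ (fun q => f q * ba a q) (hf2.integrable_mul (hbaL a ha)), Atlas.wedgeInt]
      refine integral_congr_ae ?_
      filter_upwards [hae] with x hx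
      rw [← A.wedgePt_congr_left (M := ∑ z, A.enc x (V x) z • A.basisForm z x) (M' := V x)
        (fun d hd => pull_recon hx (hVs x) hd) (a x), A.wedgePt_sum_left]
      refine Finset.sum_congr rfl fun z _ => ?_
      simp [f, hba, hx, Atlas.wedgePt_smul_left]
    rw [e]
    refine (Est.abs_integral_mul_le hf2 (hbaL a ha)).trans_eq ?_
    rw [intμ _ hf2.integrable_sq, Atlas.n2]
    congr 2
    refine integral_congr_ae (ae_of_all _ fun x => ?_)
    show ∑ z, f (x, z) ^ 2 = A.sqX x (V x)
    rw [← A.sq_sN, Atlas.sN, EuclideanSpace.norm_sq_eq]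
    simp [f]
  have hbound : ∀ a, IsTestX A a → |R a| ≤ B * Real.sqrt (∫ q, ba a q ^ 2 ∂μ) := fun a ha => by
    refine le_of_tendsto ((hlim a ha).abs) ?_
    filter_upwards [Ioc_mem_nhdsGT hε₀] with ε hε
    obtain ⟨V, hVL, hVs, hVn, hVrep⟩ := hV ε hε.1 hε.2
    rw [hVrep a ha]
    exact (hpair V hVL hVs a ha).trans (mul_le_mul_of_nonneg_right hVn (Real.sqrt_nonneg _))
  -- the submodule and the functional
  let P : Submodule ℝ (Amb N × Idx K → ℝ) :=
    { carrier := {f | ∃ a, IsTestX A a ∧ ba a = f}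
      add_mem' := by
        rintro f g ⟨a, ha, rfl⟩ ⟨b, hb, rfl⟩
        exact ⟨a + b, isTestX_add ha hb, hba_add a b⟩
      zero_mem' := ⟨0, isTestX_zero, by simpa using hba_smul 0 0⟩
      smul_mem' := by
        rintro t f ⟨a, ha, rfl⟩
        exact ⟨t • a, isTestX_smul t ha, hba_smul t a⟩ }
  have hwd : ∀ a b, IsTestX A a → IsTestX A b → ba a = ba b → R a = R b := fun a b ha hb h => by
    have hd : ba (a + (-1 : ℝ) • b) = 0 := by
      rw [hba_add, hba_smul, h]; simp
    have h1 := hbound _ (isTestX_add ha (isTestX_smul (-1) hb))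
    rw [hd, hadd a _ ha (isTestX_smul (-1) hb), hsmul _ b hb] at h1
    simp at h1
    linarith
  set Lf : (Amb N × Idx K → ℝ) → ℝ :=
    fun f => if h : ∃ a, IsTestX A a ∧ ba a = f then R h.choose else 0
  have hLf : ∀ a, IsTestX A a → Lf (ba a) = R a := fun a ha => by
    have h : ∃ b, IsTestX A b ∧ ba b = ba a := ⟨a, ha, rfl⟩
    simp only [Lf, dif_pos h]
    exact hwd _ _ h.choose_spec.1 ha h.choose_spec.2
  obtain ⟨u, hum, huL, hu⟩ := Est.exists_repr P (μ := μ) (C := B)
    (fun f ⟨a, ha, he⟩ => he ▸ hbaL a ha) Lf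
    (fun f ⟨a, ha, hf⟩ g ⟨b, hb, hg⟩ => by
      subst hf hg
      rw [← hba_add, hLf _ (isTestX_add ha hb), hLf a ha, hLf b hb, hadd a b ha hb])
    (fun t f ⟨a, ha, hf⟩ => by
      subst hf
      rw [← hba_smul, hLf _ (isTestX_smul t ha), hLf a ha, hsmul t a ha])
    (fun f ⟨a, ha, hf⟩ => by subst hf; rw [hLf a ha]; exact hbound a ha)
  -- the density
  set ρ₀ : Amb N → MN N := fun x => ∑ z, u (x, z) • A.basisForm z x
  set ρ : Amb N → MN N := fun x =>
    if x ∈ A.X then antiX J x ((A.proj x)ᵀ * ρ₀ x * A.proj x) else 0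
  have hρ₀s : ∀ x, (ρ₀ x)ᵀ = -ρ₀ x := fun x => by
    simp only [ρ₀, transpose_sum, transpose_smul, basisForm_skew, smul_neg, Finset.sum_neg_distrib]
  have hpull : ∀ x ∈ A.X, ∀ d, A.chi d x ≠ 0 →
      A.pullAt d (ρ x) (A.phi d x) = A.pullAt d (antiX J x (ρ₀ x)) (A.phi d x) := fun x hx d hd => by
    simp only [ρ, if_pos hx]
    rw [Atlas.pull_antiX hJ hx hd, Atlas.pull_antiX hJ hx hd, Atlas.pull_projForm hx hd]
  obtain ⟨Ca, hCa, hCab⟩ := Atlas.exists_anti_bound hJ
  choose Cb hCb using fun z : Idx K =>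
    A.compact.exists_bound_of_continuousOn
      (A.sN_cont continuous_id (basisForm_cont (A := A) z)).continuousOn
  set Cs := ∑ z, |Cb z|
  have hsize : ∀ x ∈ A.X, A.sN x (ρ x) ≤ Ca * (Cs * ∑ z, |u (x, z)|) := fun x hx => by
    rw [A.sN_congr (hpull x hx)]
    refine (hCab x hx (ρ₀ x)).1.trans (mul_le_mul_of_nonneg_left ?_ (zero_le_one.trans hCa))
    rw [Atlas.sN]
    have e : A.enc x (ρ₀ x) = ∑ z, u (x, z) • A.enc x (A.basisForm z x) := by
      simp only [ρ₀]
      have hgen : ∀ s : Finset (Idx K), A.enc x (∑ z ∈ s, u (x, z) • A.basisForm z x)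
          = ∑ z ∈ s, u (x, z) • A.enc x (A.basisForm z x) := fun s => by
        induction s using Finset.induction_on with
        | empty => ext z; simp [Atlas.enc_apply, Atlas.pullAt]
        | insert a t ha ih =>
          rw [Finset.sum_insert ha, Finset.sum_insert ha, A.enc_add, A.enc_smul, ih]
      exact hgen Finset.univ
    rw [e, Finset.mul_sum]
    refine (norm_sum_le _ _).trans (Finset.sum_le_sum fun z _ => ?_)
    rw [norm_smul, Real.norm_eq_abs, mul_comm Cs]
    refine mul_le_mul_of_nonneg_left ?_ (abs_nonneg _)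
    refine ((le_abs_self _).trans ((Real.norm_eq_abs _).symm.trans_le (hCb z x hx))).trans
      ((le_abs_self _).trans ?_)
    exact Finset.single_le_sum (f := fun z => |Cb z|) (fun _ _ => abs_nonneg _) (Finset.mem_univ z)
  have hum' : ∀ z : Idx K, Measurable fun x => u (x, z) := fun z =>
    hum.measurable.comp measurable_prodMk_right
  have hent : ∀ i k, AEStronglyMeasurable (fun x => ρ x i k) A.vol := fun i k => by
    have hJm : ∀ i k, AEStronglyMeasurable (fun x => J x i k) A.vol := fun i k =>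
      aesm_of_continuousOn hae (Atlas.J_continuousOn hJ i k)
    have hPm : ∀ i k, AEStronglyMeasurable (fun x => A.proj x i k) A.vol := fun i k =>
      aesm_of_continuousOn hae (A.proj_continuousOn i k)
    have h0m : ∀ i k, AEStronglyMeasurable (fun x => ρ₀ x i k) A.vol := fun i k => by
      simp only [ρ₀, Matrix.sum_apply, Matrix.smul_apply, smul_eq_mul]
      exact Finset.aestronglyMeasurable_fun_sum _ fun z _ =>
        (hum' z).aestronglyMeasurable.mul (basisForm_cont z i k).aestronglyMeasurable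
    have hQ : ∀ i k, AEStronglyMeasurable (fun x => ((A.proj x)ᵀ * ρ₀ x * A.proj x) i k) A.vol :=
      aesm_mul (aesm_mul (fun i k => hPm k i) h0m) hPm
    have hJQ := aesm_mul (aesm_mul (F := fun x => (J x)ᵀ) (fun i k => hJm k i) hQ) hJm
    refine AEStronglyMeasurable.congr
      (f := fun x => (2 : ℝ)⁻¹ * (((A.proj x)ᵀ * ρ₀ x * A.proj x) i k
        - ((J x)ᵀ * ((A.proj x)ᵀ * ρ₀ x * A.proj x) * J x) i k))
      (aestronglyMeasurable_const.mul ((hQ i k).sub (hJQ i k))) ?_
    filter_upwards [hae] with x hx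
    simp [ρ, hx, antiX]
  have hρL : L2X A ρ := by
    refine ⟨hent, ?_⟩
    have hm : AEStronglyMeasurable (fun x => A.sqX x (ρ x)) A.vol := by
      have e : (fun x => A.sqX x (ρ x)) = fun x => ∑ z, A.enc x (ρ x) z ^ 2 := by
        funext x
        rw [← A.sq_sN, Atlas.sN, EuclideanSpace.norm_sq_eq]; simp
      rw [e]
      exact Finset.aestronglyMeasurable_fun_sum _ fun z _ => (aesm_enc hent z).pow 2
    have hiu : Integrable (fun x => ∑ z, u (x, z) ^ 2) A.vol := by
      have h := huL.integrable_sq.integral_prod_left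
      refine h.congr (ae_of_all _ fun x => ?_)
      show ∫ y, u (x, y) ^ 2 ∂Measure.count = ∑ z, u (x, z) ^ 2
      rw [integral_fintype Integrable.of_finite]
      simp
    refine (hiu.const_mul ((Ca * Cs) ^ 2 * Fintype.card (Idx K))).mono' hm ?_
    filter_upwards [hae] with x hx
    rw [Real.norm_eq_abs, abs_of_nonneg (A.sqX_nonneg _ _), ← A.sq_sN]
    refine (pow_le_pow_left₀ (A.sN_nonneg _ _) (hsize x hx) 2).trans ?_
    rw [← mul_assoc, mul_pow, mul_assoc ((Ca * Cs) ^ 2)]
    refine mul_le_mul_of_nonneg_left ?_ (sq_nonneg _)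
    refine (sq_sum_le_card_mul_sum_sq (s := Finset.univ) (f := fun z => |u (x, z)|)).trans_eq ?_
    simp [sq_abs, Finset.card_univ]
  refine ⟨ρ, hρL, fun x => ?_, fun x hx => ?_, fun a ha => ?_⟩
  · by_cases hx : x ∈ A.X
    · simp only [ρ, if_pos hx]
      exact antiX_skew (skew_conj' (hρ₀s x) _)
    · simp [ρ, hx]
  · simp only [ρ, if_pos hx]
    exact Atlas.antiX_idem hJ hx _
  · have ha' := isTestX_anti hJ ha
    have hRa : R a = R fun x => antiX J x (a x) := by
      have h1 := hinv _ (isTestX_sub ha ha') (invX_sub_anti hJ a)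
      have h2 : a = (a - fun x => antiX J x (a x)) + fun x => antiX J x (a x) := by simp
      conv_lhs => rw [h2, hadd _ _ (isTestX_sub ha ha') ha', h1, zero_add]
    rw [hRa, ← hLf _ ha', hu _ ⟨_, ha', rfl⟩, intμ (fun q => u q * ba _ q) (huL.integrable_mul (hbaL _ ha')),
      Atlas.wedgeInt]
    refine integral_congr_ae ?_
    filter_upwards [hae] with x hx
    have e : A.wedgePt x (ρ x) (a x) = A.wedgePt x (ρ₀ x) (antiX J x (a x)) := by
      rw [A.wedgePt_congr_left (hpull x hx) (a x)]
      have h1 := h0 x hx (ρ₀ x) (a x) (hρ₀s x) (ha.skew x)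
      have h2 := h0 x hx (a x) (ρ₀ x) (ha.skew x) (hρ₀s x)
      conv_lhs => rw [← inv_add_anti J x (a x), A.wedgePt_add_right, A.wedgePt_comm x _ (inv11X J x (a x)), h2, zero_add]
      conv_rhs => rw [← inv_add_anti J x (ρ₀ x), A.wedgePt_add_left, h1, zero_add]
    rw [e]
    simp only [ρ₀, A.wedgePt_sum_left, Atlas.wedgePt_smul_left, hba, Set.indicator_of_mem hx]

end Vale.Agent.P204.General
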