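import Mathlib
import Vale.Agent.P204.General.Tangent

/-!
# P204 on a closed four-manifold: the volume of small balls from below, and restriction to subtypes
-/

open MeasureTheory Matrix Filter Set
open scoped ContDiff Topology ENNReal NNReal

namespace Vale.Agent.P204.General

open Vale.Agent.P204.Torus

variable {N K : ℕ} (A : Atlas N K)

namespace Atlas

/-- Balls about points of the manifold have volume at least `c r⁴`. -/
theorem vol_lower (hfin : IsFiniteMeasure A.vol) : ∃ c : ℝ, 0 < c ∧
    ∀ x ∈ A.X, ∀ r, 0 < r → r ≤ 1 → c * r ^ 4 ≤ (A.vol {y | ‖x - y‖ ≤ r}).toReal := by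
  have hK : 0 < (K : ℝ) := by
    obtain ⟨x, hx⟩ := A.nonempty
    obtain ⟨c, -⟩ := A.exists_chart hx
    exact_mod_cast c.pos
  set B : Set Pt := Metric.closedBall 0 (3 / 4) with hBdef
  have hB : B ⊆ box := Metric.closedBall_subset_ball (by norm_num)
  choose M hM using fun c => ((A.psi_smooth c).contDiffOn (s := B)).exists_lipschitzOnWith
    (by norm_num) (convex_closedBall _ _) (isCompact_closedBall _ _)
  choose M' hM' using fun c =>
    (((A.chi_smooth c).comp (A.psi_smooth c)).contDiffOn (s := B)).exists_lipschitzOnWith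
      (by norm_num) (convex_closedBall _ _) (isCompact_closedBall _ _)
  set Ls : ℝ := 1 + ∑ c, ((M c : ℝ) + (M' c : ℝ))
  have hLs : ∀ c, (M c : ℝ) ≤ Ls ∧ (M' c : ℝ) ≤ Ls := fun c => by
    have h := Finset.single_le_sum (f := fun c => ((M c : ℝ) + (M' c : ℝ)))
      (fun c _ => add_nonneg (M c).2 (M' c).2) (Finset.mem_univ c)
    constructor <;> simp only [Ls] <;> linarith [(M c).2, (M' c).2]
  have hL1 : 1 ≤ Ls := le_add_of_nonneg_right (Finset.sum_nonneg fun c _ => add_nonneg (M c).2 (M' c).2)
  set δ := min (1 / 4 : ℝ) (1 / (2 * K)) with hδdef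
  have hδ : 0 < δ := lt_min (by norm_num) (by positivity)
  have small : ∀ x ∈ A.X, ∀ r, 0 < r → r ≤ δ →
      (2 / Ls) ^ 4 / (2 * K) * r ^ 4 ≤ (A.vol {y | ‖x - y‖ ≤ r}).toReal := by
    intro x hx r hr hrδ
    obtain ⟨c, hc⟩ : ∃ c, 1 ≤ (K : ℝ) * A.chi c x := by
      by_contra hcon
      push Not at hcon
      obtain ⟨c₀, -⟩ := A.exists_chart hx
      have h := Finset.sum_lt_sum_of_nonempty ⟨c₀, Finset.mem_univ c₀⟩ fun c _ => hcon c
      rw [← Finset.mul_sum, A.chi_sum x hx] at h
      simp at h
    have hne : A.chi c x ≠ 0 := fun h => by rw [h, mul_zero] at hc; linarith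
    obtain ⟨p, hp, rfl⟩ := A.chi_supp c x hx hne
    have hpB : p ∈ B := Metric.closedBall_subset_closedBall (by norm_num) hp
    set ρ := r / Ls
    have hρ : 0 < ρ := by positivity
    have hρr : ρ ≤ r := div_le_self hr.le hL1
    set E : Set Pt := Metric.closedBall p ρ
    have hEB : E ⊆ B := by
      intro q hq
      have h1 := dist_triangle q p 0
      have h2 : dist p 0 ≤ 1 / 2 := hp
      have h3 : dist q p ≤ ρ := hq
      exact Metric.mem_closedBall.2 (by linarith [min_le_left (1 / 4 : ℝ) (1 / (2 * K))])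
    have hEbox : E ⊆ box := hEB.trans hB
    have himg : ∀ q ∈ E, ‖A.psi c p - A.psi c q‖ ≤ r := fun q hq => by
      rw [← dist_eq_norm]
      refine ((hM c).dist_le_mul p hpB q (hEB hq)).trans ?_
      refine (mul_le_mul (hLs c).1 (show dist p q ≤ ρ by rw [dist_comm]; exact hq) dist_nonneg
        (by linarith)).trans_eq ?_
      simp only [ρ]; field_simp
    have hdens : ∀ q ∈ E, 1 / (2 * (K : ℝ)) ≤ A.chi c (A.psi c q) := fun q hq => by
      have h := (hM' c).dist_le_mul p hpB q (hEB hq)
      simp only [Function.comp_apply, Real.dist_eq] at h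
      have h2 : (M' c : ℝ) * dist p q ≤ r := by
        refine (mul_le_mul (hLs c).2 (show dist p q ≤ ρ by rw [dist_comm]; exact hq) dist_nonneg
          (by linarith)).trans_eq ?_
        simp only [ρ]; field_simp
      have h3 : r ≤ 1 / (2 * K) := hrδ.trans (min_le_right _ _)
      have h4 : 1 / (K : ℝ) ≤ A.chi c (A.psi c p) := by rw [div_le_iff₀ hK]; linarith
      have h5 : 1 / (K : ℝ) = 1 / (2 * K) + 1 / (2 * K) := by field_simp; ring
      linarith [(abs_le.1 h).2]
    set S : Set (Amb N) := {y | ‖A.psi c p - y‖ ≤ r}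
    have hS : MeasurableSet S := measurableSet_le (by fun_prop) measurable_const
    set ν := (volume.restrict box).withDensity fun q => ENNReal.ofReal (A.chi c (A.psi c q))
    have h1 : ENNReal.ofReal (1 / (2 * K)) * volume E ≤ A.vol S := by
      have h2 : (ν.map (A.psi c)) S ≤ A.vol S := by
        rw [Atlas.vol, Measure.finsetSum_apply]
        exact Finset.single_le_sum (f := fun d => (((volume.restrict box).withDensity fun q =>
          ENNReal.ofReal (A.chi d (A.psi d q))).map (A.psi d)) S) (fun d _ => bot_le)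
          (Finset.mem_univ c)
      refine le_trans ?_ h2
      rw [Measure.map_apply (A.psi_cont c).measurable hS]
      refine le_trans ?_ (measure_mono (μ := ν) (show E ⊆ A.psi c ⁻¹' S from himg))
      rw [withDensity_apply _ Metric.isClosed_closedBall.measurableSet,
        Measure.restrict_restrict Metric.isClosed_closedBall.measurableSet,
        Set.inter_eq_left.2 hEbox, ← setLIntegral_const]
      exact setLIntegral_mono' Metric.isClosed_closedBall.measurableSet fun q hq =>
        ENNReal.ofReal_le_ofReal (hdens q hq)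
    have h3 : volume E = ENNReal.ofReal ((2 * ρ) ^ 4) := by
      rw [Real.volume_pi_closedBall _ hρ.le, Fintype.card_fin]
    rw [h3, ← ENNReal.ofReal_mul (by positivity)] at h1
    have h4 := ENNReal.toReal_mono (measure_ne_top A.vol S) h1
    rw [ENNReal.toReal_ofReal (by positivity)] at h4
    refine le_trans (le_of_eq ?_) h4
    simp only [ρ]
    field_simp
  refine ⟨(2 / Ls) ^ 4 / (2 * K) * δ ^ 4, by positivity, fun x hx r hr hr1 => ?_⟩
  rcases le_or_gt r δ with h | h
  · refine le_trans ?_ (small x hx r hr h)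
    refine mul_le_mul_of_nonneg_right (mul_le_of_le_one_right (by positivity) ?_) (by positivity)
    exact pow_le_one₀ hδ.le ((min_le_left _ _).trans (by norm_num))
  · refine le_trans (mul_le_of_le_one_right (by positivity) (pow_le_one₀ hr.le hr1)) ?_
    refine (small x hx δ hδ le_rfl).trans (ENNReal.toReal_mono (measure_ne_top A.vol _) (measure_mono ?_))
    exact fun y hy => le_trans hy h.le

end Atlas

section Subtype

variable {α : Type*} [MeasurableSpace α] {μ : Measure α} {s : Set α}

theorem integral_comap_sub (hs : MeasurableSet s) (hμ : ∀ᵐ x ∂μ, x ∈ s) (f : α → ℝ) :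
    ∫ x : s, f x ∂(μ.comap Subtype.val) = ∫ x, f x ∂μ := by
  rw [integral_subtype_comap hs f, Measure.restrict_eq_self_of_ae_mem hμ]

theorem map_comap_sub (hs : MeasurableSet s) (hμ : ∀ᵐ x ∂μ, x ∈ s) :
    (μ.comap (Subtype.val : s → α)).map Subtype.val = μ := by
  rw [(MeasurableEmbedding.subtype_coe hs).map_comap, Subtype.range_coe]
  exact Measure.restrict_eq_self_of_ae_mem hμ

theorem integrable_comap_sub (hs : MeasurableSet s) (hμ : ∀ᵐ x ∂μ, x ∈ s) {f : α → ℝ} :
    Integrable (fun x : s => f x) (μ.comap Subtype.val) ↔ Integrable f μ := by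
  have h := (MeasurableEmbedding.subtype_coe hs).integrable_map_iff
    (μ := μ.comap (Subtype.val : s → α)) (g := f)
  rw [map_comap_sub hs hμ] at h
  exact h.symm

theorem real_comap_sub (hs : MeasurableSet s) (hμ : ∀ᵐ x ∂μ, x ∈ s) (B : Set α) :
    (μ.comap (Subtype.val : s → α)).real (Subtype.val ⁻¹' B) = μ.real B := by
  rw [measureReal_def, measureReal_def, ← (MeasurableEmbedding.subtype_coe hs).map_apply,
    map_comap_sub hs hμ]

theorem isFiniteMeasure_comap_sub (hs : MeasurableSet s) [IsFiniteMeasure μ] :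
    IsFiniteMeasure (μ.comap (Subtype.val : s → α)) :=
  ⟨by rw [(MeasurableEmbedding.subtype_coe hs).comap_apply]; exact measure_lt_top μ _⟩

end Subtype

end Vale.Agent.P204.General
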