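import Mathlib
import Vale.Agent.P204.General.Charts
import Vale.Agent.P204.General.Stmts
import Vale.Agent.P204.Torus.Dual

/-!
# P204 on a closed four-manifold, module A: duality
-/

open MeasureTheory Matrix Filter
open scoped ContDiff Topology

namespace Vale.Agent.P204.General

open Vale.Agent.P204.Torus

variable {N K : ℕ} {A : Atlas N K}

namespace Atlas

theorem pull_smul (c : Fin K) (t : ℝ) (a : Amb N → MN N) (p : Pt) :
    A.pull c (t • a) p = t • A.pull c a p := by
  simp [Atlas.pull, Atlas.pullAt, Matrix.mul_smul, Matrix.smul_mul]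

theorem pull_add (c : Fin K) (a b : Amb N → MN N) (p : Pt) :
    A.pull c (a + b) p = A.pull c a p + A.pull c b p := by
  simp [Atlas.pull, Atlas.pullAt, Matrix.mul_add, Matrix.add_mul]

theorem pull_zero (c : Fin K) (p : Pt) : A.pull c (0 : Amb N → MN N) p = 0 := by
  simp [Atlas.pull, Atlas.pullAt]

/-- The value of a form on a tangent vector and its image under `J`, in a chart. -/
theorem line_eq {J : Amb N → MN N} (hJ : IsACS A J) (a : Amb N → MN N) {x v : Amb N}
    (hv : A.IsTan x v) (c : Fin K) (hc : x ∈ A.psi c '' box) :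
    v ⬝ᵥ (a x *ᵥ (J x *ᵥ v)) = ev (A.pull c a (A.phi c x)) (A.L c *ᵥ v)
      (A.jc J c (A.phi c x) *ᵥ (A.L c *ᵥ v)) := by
  set p := A.phi c x
  have hx : A.psi c p = x := A.psi_phi c hc
  have hp : p ∈ box := A.phi_mem c hc
  set u := A.L c *ᵥ v
  have hvu : A.dmat c p *ᵥ u = v := A.tan_in_chart hv c hc
  have hJv : J x *ᵥ v = A.dmat c p *ᵥ (A.jc J c p *ᵥ u) := by
    conv_lhs => rw [← hvu, mulVec_mulVec, ← hx, hJ.tangent c p hp, ← mulVec_mulVec]
  simp only [ev, Atlas.pull, Atlas.pullAt, hx]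
  rw [hJv, ← mulVec_mulVec, ← mulVec_mulVec, dotProduct_mulVec u, vecMul_transpose, hvu]

theorem cont_line {J : Amb N → MN N} (hJ : IsACS A J) {a : Amb N → MN N} (ha : IsTestX A a) :
    Continuous fun z : A.unitTan => z.1.2 ⬝ᵥ (a z.1.1 *ᵥ (J z.1.1 *ᵥ z.1.2)) := by
  let S : Fin K → Set A.unitTan := fun c => {z | z.1.1 ∈ A.psi c '' Metric.closedBall 0 (1 / 2)}
  have hS : ∀ c, IsClosed (S c) := fun c =>
    (((isCompact_closedBall _ _).image (A.psi_cont c)).isClosed).preimage
      (continuous_fst.comp continuous_subtype_val)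
  have hu : ⋃ c, S c = Set.univ := Set.eq_univ_of_forall fun z => by
    obtain ⟨c, -, hc⟩ := A.exists_chart z.2.1
    exact Set.mem_iUnion.2 ⟨c, hc⟩
  refine (locallyFinite_of_finite S).continuous hu hS fun c => ?_
  have hcoef : ∀ i k, ContinuousOn (fun z : A.unitTan => A.pull c a (A.phi c z.1.1) i k) (S c) :=
    fun i k => (ha.smooth c i k).continuousOn.comp
      ((A.phi_cont c).comp (continuous_fst.comp continuous_subtype_val)).continuousOn
      fun z hz => A.phi_mem c (Atlas.mem_box_image A hz)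
  have hj : ∀ i k, ContinuousOn (fun z : A.unitTan => A.jc J c (A.phi c z.1.1) i k) (S c) :=
    fun i k => (hJ.smooth c i k).continuousOn.comp
      ((A.phi_cont c).comp (continuous_fst.comp continuous_subtype_val)).continuousOn
      fun z hz => A.phi_mem c (Atlas.mem_box_image A hz)
  refine ContinuousOn.congr ?_ fun z hz => line_eq hJ a z.2.2.1 c (Atlas.mem_box_image A hz)
  simp only [ev, mulVec, dotProduct]
  fun_prop

end Atlas

theorem isClosedX_smul {a : Amb N → MN N} (ha : IsClosedX A a) (t : ℝ) :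
    IsClosedX A (t • a) := by
  refine ⟨⟨fun x => ?_, fun c i k => ?_⟩, fun c p hp i j k => ?_⟩
  · simp [ha.skew x]
  · simp only [Atlas.pull_smul, Matrix.smul_apply]
    exact (ha.smooth c i k).const_smul t
  · have hd : ∀ i k, DifferentiableAt ℝ (fun q => A.pull c a q i k) p := fun i k =>
      ((ha.smooth c i k).differentiableOn (by norm_num)).differentiableAt (isOpen_box.mem_nhds hp)
    simp only [pd, Atlas.pull_smul, Matrix.smul_apply, smul_eq_mul]
    rw [fderiv_const_mul (hd j k), fderiv_const_mul (hd k i), fderiv_const_mul (hd i j)]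
    simp only [_root_.smul_apply, smul_eq_mul]
    have := ha.closed c p hp i j k
    simp only [pd] at this
    linear_combination t * this

theorem isClosedX_add {a b : Amb N → MN N} (ha : IsClosedX A a) (hb : IsClosedX A b) :
    IsClosedX A (a + b) := by
  refine ⟨⟨fun x => ?_, fun c i k => ?_⟩, fun c p hp i j k => ?_⟩
  · simp [ha.skew x, hb.skew x, add_comm]
  · simp only [Atlas.pull_add, Matrix.add_apply]
    exact (ha.smooth c i k).add (hb.smooth c i k)
  · have hd : ∀ i k, DifferentiableAt ℝ (fun q => A.pull c a q i k) p := fun i k =>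
      ((ha.smooth c i k).differentiableOn (by norm_num)).differentiableAt (isOpen_box.mem_nhds hp)
    have he : ∀ i k, DifferentiableAt ℝ (fun q => A.pull c b q i k) p := fun i k =>
      ((hb.smooth c i k).differentiableOn (by norm_num)).differentiableAt (isOpen_box.mem_nhds hp)
    simp only [pd, Atlas.pull_add, Matrix.add_apply]
    rw [fderiv_fun_add (hd j k) (he j k), fderiv_fun_add (hd k i) (he k i),
      fderiv_fun_add (hd i j) (he i j)]
    simp only [_root_.add_apply]
    have h1 := ha.closed c p hp i j k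
    have h2 := hb.closed c p hp i j k
    simp only [pd] at h1 h2
    linarith

theorem isClosedX_zero : IsClosedX A (0 : Amb N → MN N) :=
  ⟨⟨fun x => by simp, fun c i k => by simp [Atlas.pull_zero, contDiffOn_const]⟩,
    fun c p _ i j k => by simp [pd, Atlas.pull_zero]⟩

theorem invX_comb {J a b : Amb N → MN N} (ha : InvX A J a) (hb : InvX A J b) (s t : ℝ) :
    InvX A J (s • a + t • b) := fun c p hp => by
  simp [Atlas.pull_add, Atlas.pull_smul, Matrix.mul_add, Matrix.add_mul, ha c p hp, hb c p hp]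

theorem dualStmt : DualStmt := by
  intro N K A J hJ hno
  have : CompactSpace A.unitTan := isCompact_iff_compactSpace.1 A.isCompact_unitTan
  let W : Set C(A.unitTan, ℝ) := {w | ∃ a, IsClosedX A a ∧ InvX A J a ∧
    ∀ z : A.unitTan, w z = z.1.2 ⬝ᵥ (a z.1.1 *ᵥ (J z.1.1 *ᵥ z.1.2))}
  -- a positive element would be a compatible form
  have hnp : ∀ a, IsClosedX A a → InvX A J a →
      ∃ z : A.unitTan, z.1.2 ⬝ᵥ (a z.1.1 *ᵥ (J z.1.1 *ᵥ z.1.2)) ≤ 0 := by
    intro a ha hi
    by_contra h
    push Not at h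
    refine hno ⟨a, ha, fun c p hp u hu => ?_, hi⟩
    set v := A.dmat c p *ᵥ u with hv
    have hv0 : v ≠ 0 := fun hz => hu (by
      rw [← A.L_mulVec_dmat c hp u, ← hv, hz, mulVec_zero])
    have hvv : 0 < v ⬝ᵥ v :=
      lt_of_le_of_ne (Finset.sum_nonneg fun i _ => mul_self_nonneg (v i))
        fun h0 => hv0 (dotProduct_self_eq_zero.1 h0.symm)
    set t := (Real.sqrt (v ⬝ᵥ v))⁻¹ with ht
    have ht0 : 0 < t := by positivity
    have hx : A.psi c p ∈ A.psi c '' box := ⟨p, hp, rfl⟩
    have hz : (A.psi c p, t • v) ∈ A.unitTan := by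
      refine ⟨A.psi_mem c p hp, ⟨c, p, hp, t • u, rfl, by rw [mulVec_smul]⟩, ?_⟩
      rw [smul_dotProduct, dotProduct_smul, smul_eq_mul, smul_eq_mul, ← mul_assoc, ht, ← mul_inv,
        Real.mul_self_sqrt hvv.le, inv_mul_cancel₀ hvv.ne']
    have h1 := h ⟨_, hz⟩
    rw [Atlas.line_eq hJ a hz.2.1 c hx] at h1
    simp only [A.phi_psi c hp, v, mulVec_smul, A.L_mulVec_dmat c hp, ev, smul_dotProduct,
      dotProduct_smul, smul_eq_mul] at h1
    rw [← mul_assoc] at h1
    exact (mul_pos_iff_of_pos_left (mul_pos ht0 ht0)).1 h1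
  have hne : Nonempty A.unitTan := by
    obtain ⟨z, -⟩ := hnp 0 isClosedX_zero fun c p _ => by simp [Atlas.pull_zero]
    exact ⟨z⟩
  have hsm : ∀ t : ℝ, ∀ w ∈ W, t • w ∈ W := by
    rintro t w ⟨a, ha, hi, hw⟩
    refine ⟨t • a, isClosedX_smul ha t, fun c p hp => ?_, fun z => ?_⟩
    · simp [Atlas.pull_smul, hi c p hp]
    · simp [hw z, smul_mulVec, dotProduct_smul]
  have hconv : Convex ℝ W := by
    rintro w₁ ⟨a, ha, hia, hw₁⟩ w₂ ⟨b, hb, hib, hw₂⟩ s t _ _ _
    refine ⟨s • a + t • b, isClosedX_add (isClosedX_smul ha s) (isClosedX_smul hb t),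
      invX_comb hia hib s t, fun z => ?_⟩
    simp only [ContinuousMap.add_apply, ContinuousMap.smul_apply, hw₁ z, hw₂ z, Pi.add_apply,
      Pi.smul_apply, add_mulVec, smul_mulVec, dotProduct_add, dotProduct_smul]
  obtain ⟨μ, hμf, hμ0, hμ⟩ := exists_annihilating_measure W hconv
    ⟨0, isClosedX_zero, fun c p _ => by simp [Atlas.pull_zero], fun z => by simp⟩ hsm
    (by rintro w ⟨a, ha, hi, hw⟩
        obtain ⟨z, hz⟩ := hnp a ha hi
        exact ⟨z, (hw z).trans_le hz⟩)
  have hmeas : MeasurableSet A.unitTan := A.isCompact_unitTan.isClosed.measurableSet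
  refine ⟨μ.map Subtype.val, ⟨inferInstance, ?_, ?_, ?_⟩⟩
  · intro h
    exact hμ0 ((Measure.map_eq_zero_iff measurable_subtype_coe.aemeasurable).1 h)
  · exact (ae_map_iff measurable_subtype_coe.aemeasurable hmeas).2
      (Eventually.of_forall fun z => z.2)
  · intro a ha hi
    rw [tcurX, (MeasurableEmbedding.subtype_coe hmeas).integral_map]
    exact hμ ⟨_, Atlas.cont_line hJ ha.toIsTestX⟩ ⟨a, ha, hi, fun _ => rfl⟩

end Vale.Agent.P204.General
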