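import Mathlib
import Vale.Agent.P204.General.Bridge.Man

/-!
# P204 audit: the chart clauses of the statement agree with Mathlib's notion of a smooth section
-/

open Bundle Set Filter
open scoped Manifold ContDiff Topology

namespace Vale.Agent.P204.Audit

open Vale.Agent.P204.General

universe u
variable {X : Type u} [TopologicalSpace X] [ChartedSpace R4 X] [IsManifold (𝓡 4) ∞ X]

/-- The section of the endomorphism bundle given by `J`. -/
noncomputable def endSection (J : EndField X) (x : X) :
    TotalSpace (R4 →L[ℝ] R4)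
      (fun x : X => TangentSpace (𝓡 4) x →L[ℝ] TangentSpace (𝓡 4) x) :=
  TotalSpace.mk' (R4 →L[ℝ] R4) x (J x)

theorem section_read (J : EndField X) (c : X) {x : X} (hx : x ∈ (chartAt R4 c).source) :
    (trivializationAt (R4 →L[ℝ] R4)
      (fun x : X => TangentSpace (𝓡 4) x →L[ℝ] TangentSpace (𝓡 4) x) c (endSection J x)).2
      = jCoord J c (extChartAt (𝓡 4) c x) := by
  have hs : (extChartAt (𝓡 4) c).symm (extChartAt (𝓡 4) c x) = x :=
    (extChartAt (𝓡 4) c).left_inv (by rwa [extChartAt_source])
  rw [endSection, hom_trivializationAt_apply]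
  simp only [ContinuousLinearMap.inCoordinates, jCoord, chartInvDeriv,
    TangentBundle.continuousLinearMapAt_trivializationAt hx,
    TangentBundle.symmL_trivializationAt hx, ModelWithCorners.range_eq_univ, mfderivWithin_univ]
  rw! [hs]
  rfl

/-- The chart clause says precisely that `J` is a smooth section. -/
theorem isAlmostComplexStructure_iff (J : EndField X) :
    IsAlmostComplexStructure J ↔ (∀ x v, J x (J x v) = -v) ∧
      ContMDiff (𝓡 4) ((𝓡 4).prod 𝓘(ℝ, R4 →L[ℝ] R4)) ∞ (endSection J) := by
  refine ⟨fun h => ⟨h.1, fun x => ?_⟩, fun h => ⟨h.1, fun c v q hq => ?_⟩⟩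
  · refine (Bundle.contMDiffAt_section x).2 ?_
    have hc : ContMDiffAt (𝓡 4) 𝓘(ℝ, R4 →L[ℝ] R4) ∞ (jCoord J x ∘ extChartAt (𝓡 4) x) x :=
      ((jCoord_smooth h x).contDiffAt ((isOpen_extChartAt_target x).mem_nhds
        (mem_extChartAt_target x))).contMDiffAt.comp x contMDiffAt_extChartAt
    exact hc.congr_of_eventuallyEq (eventually_of_mem (chart_source_mem_nhds R4 x)
      fun y hy => section_read J x hy)
  · have hm : (extChartAt (𝓡 4) c).symm q ∈ (chartAt R4 c).source := by
      simpa only [extChartAt_source] using (extChartAt (𝓡 4) c).map_target hq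
    have h1 := ((trivializationAt (R4 →L[ℝ] R4)
      (fun x : X => TangentSpace (𝓡 4) x →L[ℝ] TangentSpace (𝓡 4) x) c).contMDiffAt_section_iff
        (IB := 𝓡 4) (by simpa only [hom_trivializationAt_baseSet, TangentBundle.trivializationAt_baseSet,
          inter_self] using hm)).1 (h.2 _)
    have h2 := h1.comp q ((contMDiffOn_extChartAt_symm c).contMDiffAt
      ((isOpen_extChartAt_target c).mem_nhds hq))
    refine ContDiffAt.contDiffWithinAt ((contMDiffAt_iff_contDiffAt.1 h2).clm_apply
      (contDiffAt_const (c := v)) |>.congr_of_eventuallyEq ?_)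
    filter_upwards [(isOpen_extChartAt_target c).mem_nhds hq] with p hp
    have hp' : (extChartAt (𝓡 4) c).symm p ∈ (chartAt R4 c).source := by
      simpa only [extChartAt_source] using (extChartAt (𝓡 4) c).map_target hp
    have := section_read J c hp'
    rw [(extChartAt (𝓡 4) c).right_inv hp] at this
    exact (congrArg (fun L => L v) this).symm

omit [IsManifold (𝓡 4) ∞ X] in
/-- A taming form is nondegenerate, so a closed one is symplectic. -/
theorem nondegenerate_of_tames {σ : BilinField X} {J : EndField X} (h : TamesJ σ J) (x : X)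
    (v : TangentSpace (𝓡 4) x) (hv : v ≠ 0) : ∃ w, σ x v w ≠ 0 :=
  ⟨J x v, (h x v hv).ne'⟩

end Vale.Agent.P204.Audit
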