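import Mathlib

/-!
# P204: the vocabulary of the hand-in, over a model space given by variables

The same definitions as in `General/Statement.lean`, written for any model space so that they print
briefly. The hand-in takes the model space to be Euclidean four-space.
-/

namespace Vale.Agent.P204.Field

open scoped Manifold ContDiff

universe u
variable {E : Type} [NormedAddCommGroup E] [NormedSpace ℝ E]
variable {X : Type u} [TopologicalSpace X] [ChartedSpace E X]

/-- The differential of the inverse of the chart at `c`. -/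
noncomputable def chartInv (c : X) (p : E) :
    E →L[ℝ] TangentSpace 𝓘(ℝ, E) ((extChartAt 𝓘(ℝ, E) c).symm p) :=
  mfderiv 𝓘(ℝ, E) 𝓘(ℝ, E) (extChartAt 𝓘(ℝ, E) c).symm p

/-- A field of bilinear forms on the tangent spaces. -/
abbrev Bilin (E : Type) [NormedAddCommGroup E] [NormedSpace ℝ E] (X : Type u) [TopologicalSpace X]
    [ChartedSpace E X] :=
  ∀ x : X, TangentSpace 𝓘(ℝ, E) x →L[ℝ] TangentSpace 𝓘(ℝ, E) x →L[ℝ] ℝ

/-- A field of endomorphisms of the tangent spaces. -/
abbrev Endo (E : Type) [NormedAddCommGroup E] [NormedSpace ℝ E] (X : Type u) [TopologicalSpace X]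
    [ChartedSpace E X] :=
  ∀ x : X, TangentSpace 𝓘(ℝ, E) x →L[ℝ] TangentSpace 𝓘(ℝ, E) x

/-- The coefficient of a two-form in the chart at `c`. -/
noncomputable def chartCoeff (σ : Bilin E X) (c : X) (v w : E) (p : E) : ℝ :=
  σ ((extChartAt 𝓘(ℝ, E) c).symm p) (chartInv c p v) (chartInv c p w)

/-- A smooth closed two-form. -/
def IsClosedForm (σ : Bilin E X) : Prop :=
  (∀ x v, σ x v v = 0) ∧ ∀ c : X,
    (∀ v w, ContDiffOn ℝ ∞ (chartCoeff σ c v w) (extChartAt 𝓘(ℝ, E) c).target) ∧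
    ∀ p ∈ (extChartAt 𝓘(ℝ, E) c).target, ∀ a b d : E,
      fderiv ℝ (chartCoeff σ c b d) p a + fderiv ℝ (chartCoeff σ c d a) p b +
        fderiv ℝ (chartCoeff σ c a b) p d = 0

/-- A smooth almost complex structure. -/
def IsACStructure (J : Endo E X) : Prop :=
  (∀ x v, J x (J x v) = -v) ∧ ∀ c : X, ∀ v : E,
    ContDiffOn ℝ ∞ (fun p => mfderiv 𝓘(ℝ, E) 𝓘(ℝ, E) (extChartAt 𝓘(ℝ, E) c)
      ((extChartAt 𝓘(ℝ, E) c).symm p) (J _ (chartInv c p v)) : E → E)
      (extChartAt 𝓘(ℝ, E) c).target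

/-- `σ` tames `J`. -/
def Tames (σ : Bilin E X) (J : Endo E X) : Prop :=
  ∀ x v, v ≠ 0 → 0 < σ x v (J x v)

/-- `σ` is invariant under `J`. -/
def IsInvariant (σ : Bilin E X) (J : Endo E X) : Prop :=
  ∀ x v w, σ x (J x v) (J x w) = σ x v w

end Vale.Agent.P204.Field
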