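import Mathlib
import Vale.Agent.P204.General.Statement
import Vale.Agent.P204.General.StatementShort

/-!
# P204: the hand-in's form of the statement follows from `Conjecture`
-/

namespace Vale.Agent.P204.General

open scoped Manifold ContDiff
open _root_.Vale.Agent.P204.Field

universe u

/-- The same statement in the short vocabulary. -/
theorem field_form (h : Conjecture.{u}) : ∀ (X : Type u) [TopologicalSpace X] [T2Space X]
    [SecondCountableTopology X] [CompactSpace X] [ConnectedSpace X]
    [ChartedSpace (EuclideanSpace ℝ (Fin 4)) X] [IsManifold (𝓡 4) ∞ X]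
    (J : Endo (EuclideanSpace ℝ (Fin 4)) X),
    IsACStructure J → (∃ σ, IsClosedForm σ ∧ Tames σ J) →
      ∃ σ, IsClosedForm σ ∧ Tames σ J ∧ IsInvariant σ J := h

variable {X : Type u} [TopologicalSpace X] [ChartedSpace R4 X]

/-- The two vocabularies agree. -/
theorem field_defs (σ : BilinField X) (J : EndField X) :
    (IsACStructure J ↔ IsAlmostComplexStructure J) ∧ (IsClosedForm σ ↔ IsClosedTwoForm σ) ∧
      (Tames σ J ↔ TamesJ σ J) ∧ (IsInvariant σ J ↔ InvariantJ σ J) :=
  ⟨Iff.rfl, Iff.rfl, Iff.rfl, Iff.rfl⟩

end Vale.Agent.P204.General
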