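import Mathlib
import Vale.Agent.P204.General.StatementShort

/-!
# P204: nondegeneracy, in the vocabulary of the hand-in
-/

namespace Vale.Agent.P204.Field

open scoped Manifold

universe u
variable {E : Type} [NormedAddCommGroup E] [NormedSpace ℝ E]
variable {X : Type u} [TopologicalSpace X] [ChartedSpace E X]

/-- `σ` is nondegenerate. -/
def IsNondegenerate (σ : Bilin E X) : Prop :=
  ∀ x v, v ≠ 0 → ∃ w, σ x v w ≠ 0

end Vale.Agent.P204.Field
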