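import Mathlib
import Vale.Agent.P204.General.Assembly.Main
import Vale.Agent.P204.General.Bridge.Main
import Vale.Agent.P204.General.Dual
import Vale.Agent.P204.General.Ext.Hahn
import Vale.Agent.P204.General.Test.Main
import Vale.Agent.P204.General.Apriori.Main
import Vale.Agent.P204.General.Closed.Main

/-!
# P204: the main theorem from the two remaining analytic inputs
-/

namespace Vale.Agent.P204.General

universe u

/-- The conjecture, from the bound on the extension and the smoothing. -/
theorem conjecture_of (hBound : BoundStmt) (hSm : SmoothStmt) : Conjecture.{u} :=
  conjecture_of_modules bridgeStmt dualStmt (extStmt_of_bound hBound) hSm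
    (aprioriStmt hSm testStmt) (closedStmt_of basicStmt testStmt (aprioriStmt hSm testStmt))

end Vale.Agent.P204.General
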