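import Mathlib
import Vale.Agent.P204.General.Statement

/-!
# P204: the definitions of the statement are not vacuous (the standard structure on the model space)
-/

open scoped Manifold ContDiff

namespace Vale.Agent.P204

/-- The standard complex structure of the model space. -/
noncomputable def stdJ : R4 →L[ℝ] R4 :=
  LinearMap.toContinuousLinearMap
    { toFun := fun v => WithLp.toLp 2 ![-v 1, v 0, -v 3, v 2]
      map_add' := fun v w => by
        ext i; fin_cases i <;> simp <;> ring
      map_smul' := fun a v => by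
        ext i; fin_cases i <;> simp }

/-- The standard symplectic form of the model space. -/
noncomputable def stdOm : R4 →L[ℝ] R4 →L[ℝ] ℝ :=
  LinearMap.toContinuousLinearMap
    { toFun := fun v => LinearMap.toContinuousLinearMap
        { toFun := fun w => v 0 * w 1 - v 1 * w 0 + v 2 * w 3 - v 3 * w 2
          map_add' := fun a b => by simp; ring
          map_smul' := fun a b => by simp; ring }
      map_add' := fun a b => by ext w; simp; ring
      map_smul' := fun a b => by ext w; simp; ring }

theorem stdJ_apply (v : R4) (i : Fin 4) : stdJ v i = ![-v 1, v 0, -v 3, v 2] i := rfl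

theorem stdOm_apply (v w : R4) :
    stdOm v w = v 0 * w 1 - v 1 * w 0 + v 2 * w 3 - v 3 * w 2 := rfl

theorem stdOm_self (v : R4) : stdOm v v = 0 := by
  rw [stdOm_apply]; ring

theorem stdOm_inv (v w : R4) : stdOm (stdJ v) (stdJ w) = stdOm v w := by
  simp [stdOm_apply, stdJ_apply]; ring

theorem stdJ_sq (v : R4) : stdJ (stdJ v) = -v := by
  ext i; fin_cases i <;> simp [stdJ_apply]

theorem stdOm_pos (v : R4) (hv : v ≠ 0) : 0 < stdOm v (stdJ v) := by
  have h : stdOm v (stdJ v) = ‖v‖ ^ 2 := by
    rw [EuclideanSpace.norm_sq_eq, stdOm_apply, Fin.sum_univ_four]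
    simp [stdJ_apply]; ring
  rw [h]; positivity

theorem model_structure : IsAlmostComplexStructure (X := R4) (fun _ => stdJ) ∧
    IsClosedTwoForm (X := R4) (fun _ => stdOm) ∧
    TamesJ (X := R4) (fun _ => stdOm) (fun _ => stdJ) ∧
    InvariantJ (X := R4) (fun _ => stdOm) (fun _ => stdJ) := by
  have hd : ∀ (c : R4) (p : R4) (v : R4), chartInvDeriv c p v = v := fun c p v => by
    have h : HasMFDerivAt (𝓡 4) (𝓡 4) (extChartAt (𝓡 4) c).symm p
        (ContinuousLinearMap.id ℝ R4) :=
      (hasMFDerivAt_id (I := 𝓡 4) p).congr_of_eventuallyEq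
        (Filter.Eventually.of_forall fun q => by simp [chartAt_self_eq])
    exact congrArg (fun L => L v) h.mfderiv
  refine ⟨⟨fun _ v => stdJ_sq v, fun c v => ?_⟩,
    ⟨fun _ v => stdOm_self v, fun c => ⟨fun v w => ?_, ?_⟩⟩,
    fun _ v hv => stdOm_pos v hv, fun _ v w => stdOm_inv v w⟩
  · refine (contDiff_const (c := stdJ v)).contDiffOn.congr fun p _ => ?_
    rw [hd]
    have h : HasMFDerivAt (𝓡 4) (𝓡 4) (extChartAt (𝓡 4) c) ((extChartAt (𝓡 4) c).symm p)
        (ContinuousLinearMap.id ℝ R4) :=
      (hasMFDerivAt_id (I := 𝓡 4) _).congr_of_eventuallyEq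
        (Filter.Eventually.of_forall fun q => by simp [chartAt_self_eq])
    exact congrArg (fun L => L (stdJ v)) h.mfderiv
  · refine (contDiff_const (c := stdOm v w)).contDiffOn.congr fun p _ => ?_
    simp only [coeff, hd]
    rfl
  · intro p _ a b d
    have h : ∀ v w, coeff (fun _ : R4 => stdOm) c v w = fun _ => stdOm v w := fun v w => by
      funext q; simp only [coeff, hd]; rfl
    simp [h]

end Vale.Agent.P204
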